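import Vale.Agent.P042.H858.Lift
import Vale.Agent.P042.H599.Pack

/-!
# P042, seam [D] → [B], row B.8 (2): integer laws and residue maps

`iv nu A M`: the law on `Fin M`; `pf r nu A M`: its image on `∀ i, V i` under the residue maps `r i`
(`r i n = r i m ↔ n ≡ m [MOD q i]`, pairwise coprime moduli `q i`).
`klr`: relative entropy of the classes mod `d` of two integer laws, `kli`: on the interval.
-/

set_option autoImplicit false
set_option linter.unusedSectionVars false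

namespace Vale.Agent.P042.H858

open Finset Vale.Agent.P042.H461 Vale.Agent.P042.H416 Vale.Agent.P042.H742
open Vale.Agent.P042.H599 (cm Law)

/-- relative entropy of `nu mod d` with respect to `mu mod d` -/
noncomputable def klr (nu mu : ℕ → ℝ) (A M d : ℕ) : ℝ :=
  ∑ a ∈ range d, cm nu A M d a * Real.log (cm nu A M d a / cm mu A M d a)

/-- relative entropy of two laws on the interval -/
noncomputable def kli (nu mu : ℕ → ℝ) (A M : ℕ) : ℝ :=
  ∑ i ∈ range M, nu (A + i) * Real.log (nu (A + i) / mu (A + i))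

/-- the law on `Fin M` -/
def iv (nu : ℕ → ℝ) (A M : ℕ) (j : Fin M) : ℝ := nu (A + j)

/-- back from `Fin M` to the integers -/
def ex (A M : ℕ) (g : Fin M → ℝ) (n : ℕ) : ℝ :=
  if h : A ≤ n ∧ n - A < M then g ⟨n - A, h.2⟩ else 0

theorem iv_ex (A M : ℕ) (g : Fin M → ℝ) : iv (ex A M g) A M = g := by
  funext j
  unfold iv ex
  have h : A ≤ A + (j : ℕ) ∧ A + (j : ℕ) - A < M := ⟨by omega, by have := j.2; omega⟩
  rw [dif_pos h]
  congr 1
  apply Fin.ext
  simp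

theorem ex_apply (A M : ℕ) (g : Fin M → ℝ) (i : ℕ) (hi : i < M) : ex A M g (A + i) = g ⟨i, hi⟩ := by
  have h := congrFun (iv_ex A M g) ⟨i, hi⟩
  exact h

theorem isLaw_iv {nu : ℕ → ℝ} {A M : ℕ} (h : Law nu A M) : IsLaw (iv nu A M) := by
  refine ⟨fun j => h.nonneg j j.2, ?_⟩
  rw [← h.sum, Finset.sum_range]
  rfl

theorem law_ex {A M : ℕ} (hM : 0 < M) {g : Fin M → ℝ} (h : IsLaw g) : Law (ex A M g) A M := by
  refine ⟨hM, fun i hi => ?_, ?_⟩
  · rw [ex_apply A M g i hi]; exact h.1 _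
  · rw [Finset.sum_range, ← h.2]
    refine Finset.sum_congr rfl fun j _ => ?_
    rw [ex_apply A M g j j.2]

theorem kli_eq (nu mu : ℕ → ℝ) (A M : ℕ) : kli nu mu A M = KL (iv nu A M) (iv mu A M) := by
  unfold kli KL
  rw [Finset.sum_range]
  rfl

/-! ### partitions -/

section part

variable {Ω Y1 Y2 : Type*} [Fintype Ω] [Fintype Y1] [DecidableEq Y1] [Fintype Y2] [DecidableEq Y2]

theorem push_congr (g1 : Ω → Y1) (g2 : Ω → Y2) (h : ∀ a b, g1 a = g1 b ↔ g2 a = g2 b)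
    (nu : Ω → ℝ) (w : Ω) : push g1 nu (g1 w) = push g2 nu (g2 w) := by
  unfold push
  refine Finset.sum_congr ?_ fun _ _ => rfl
  ext a
  simp only [Finset.mem_filter, Finset.mem_univ, true_and]
  exact h a w

/-- the relative entropy of the images only depends on the partition -/
theorem KL_push_congr (g1 : Ω → Y1) (g2 : Ω → Y2) (h : ∀ a b, g1 a = g1 b ↔ g2 a = g2 b)
    (nu mu : Ω → ℝ) :
    KL (push g1 nu) (push g1 mu) = KL (push g2 nu) (push g2 mu) := by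
  unfold KL
  rw [sum_push g1 nu fun y => Real.log (push g1 nu y / push g1 mu y),
    sum_push g2 nu fun y => Real.log (push g2 nu y / push g2 mu y)]
  refine Finset.sum_congr rfl fun w _ => ?_
  rw [push_congr g1 g2 h nu w, push_congr g1 g2 h mu w]

end part

/-- the residue mod `d` -/
def rsd (A M d : ℕ) (hd : 0 < d) (j : Fin M) : Fin d := ⟨(A + j) % d, Nat.mod_lt _ hd⟩

theorem cm_eq (nu : ℕ → ℝ) (A M : ℕ) {d : ℕ} (hd : 0 < d) (a : Fin d) :
    cm nu A M d a = push (rsd A M d hd) (iv nu A M) a := by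
  unfold cm push
  rw [Finset.sum_range, Finset.sum_filter]
  refine Finset.sum_congr rfl fun j _ => ?_
  have h : (A + (j : ℕ)) % d = (a : ℕ) ↔ rsd A M d hd j = a := by
    rw [Fin.ext_iff]
    rfl
  by_cases h1 : (A + (j : ℕ)) % d = (a : ℕ)
  · rw [if_pos h1, if_pos (h.1 h1)]; rfl
  · rw [if_neg h1, if_neg fun h2 => h1 (h.2 h2)]

theorem klr_eq (nu mu : ℕ → ℝ) (A M : ℕ) {d : ℕ} (hd : 0 < d) :
    klr nu mu A M d =
      KL (push (rsd A M d hd) (iv nu A M)) (push (rsd A M d hd) (iv mu A M)) := by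
  unfold klr KL
  rw [Finset.sum_range]
  refine Finset.sum_congr rfl fun a _ => ?_
  rw [cm_eq nu A M hd a, cm_eq mu A M hd a]

/-! ### residue maps -/

section res

variable {ι : Type*} [Fintype ι] [DecidableEq ι] {V : ι → Type*} [∀ i, Fintype (V i)]
  [∀ i, DecidableEq (V i)]

/-- the point of the product space of an integer of the interval -/
def pt (r : ∀ i, ℕ → V i) (A M : ℕ) (j : Fin M) (i : ι) : V i := r i (A + j)

/-- the image law -/
def pf (r : ∀ i, ℕ → V i) (nu : ℕ → ℝ) (A M : ℕ) : (∀ i, V i) → ℝ :=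
  push (pt r A M) (iv nu A M)

theorem isLaw_pf (r : ∀ i, ℕ → V i) {nu : ℕ → ℝ} {A M : ℕ} (h : Law nu A M) :
    IsLaw (pf r nu A M) := (isLaw_iv h).push _

theorem prod_modEq {q : ι → ℕ} (hc : Pairwise fun i j => (q i).Coprime (q j)) (R : Finset ι)
    (a b : ℕ) : a % (∏ i ∈ R, q i) = b % (∏ i ∈ R, q i) ↔ ∀ i ∈ R, a ≡ b [MOD q i] := by
  constructor
  · intro h i hi
    have h1 : a ≡ b [MOD ∏ i ∈ R, q i] := h
    exact h1.of_dvd (Finset.dvd_prod_of_mem q hi)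
  · intro h
    have h2 : ((∏ i ∈ R, (q i : ℤ))) ∣ (b : ℤ) - a := by
      refine Finset.prod_dvd_of_coprime ?_ fun i hi => (Nat.modEq_iff_dvd.1 (h i hi))
      intro i _ j _ hij
      exact Nat.isCoprime_iff_coprime.2 (hc hij)
    have h3 : a ≡ b [MOD ∏ i ∈ R, q i] := by
      rw [Nat.modEq_iff_dvd]
      push_cast
      exact h2
    exact h3

/-- the residue map mod `∏ q` and the restriction of the point generate the same partition -/
theorem part_eq {q : ι → ℕ} (hq : ∀ i, 0 < q i)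
    (hc : Pairwise fun i j => (q i).Coprime (q j)) {r : ∀ i, ℕ → V i}
    (hr : ∀ i n m, r i n = r i m ↔ n ≡ m [MOD q i]) (A M : ℕ) (R : Finset ι) (j k : Fin M) :
    rst R (pt r A M j) = rst R (pt r A M k) ↔
      rsd A M (∏ i ∈ R, q i) (Finset.prod_pos fun i _ => hq i) j =
        rsd A M (∏ i ∈ R, q i) (Finset.prod_pos fun i _ => hq i) k := by
  have h1 : rsd A M (∏ i ∈ R, q i) (Finset.prod_pos fun i _ => hq i) j =
      rsd A M (∏ i ∈ R, q i) (Finset.prod_pos fun i _ => hq i) k ↔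
      (A + (j : ℕ)) % (∏ i ∈ R, q i) = (A + (k : ℕ)) % (∏ i ∈ R, q i) := by
    rw [Fin.ext_iff]; rfl
  rw [h1, prod_modEq hc]
  constructor
  · intro h i hi
    exact (hr i _ _).1 (congrFun h ⟨i, hi⟩)
  · intro h
    funext i
    exact (hr i _ _).2 (h i i.2)

/-- the marginals of the image law: relative entropies are those of the residue classes -/
theorem KL_rst_pf {q : ι → ℕ} (hq : ∀ i, 0 < q i)
    (hc : Pairwise fun i j => (q i).Coprime (q j)) {r : ∀ i, ℕ → V i}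
    (hr : ∀ i n m, r i n = r i m ↔ n ≡ m [MOD q i]) (nu mu : ℕ → ℝ) (A M : ℕ) (R : Finset ι) :
    KL (push (rst R) (pf r nu A M)) (push (rst R) (pf r mu A M)) =
      klr nu mu A M (∏ i ∈ R, q i) := by
  rw [pf, pf, push_push, push_push, klr_eq nu mu A M (Finset.prod_pos fun i _ => hq i)]
  exact KL_push_congr _ _ (part_eq hq hc hr A M R) _ _

/-- the competitor on the integers of a competitor on the product space -/
noncomputable def up (r : ∀ i, ℕ → V i) (mu : ℕ → ℝ) (A M : ℕ) (nu : (∀ i, V i) → ℝ) : ℕ → ℝ :=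
  ex A M (lift (pt r A M) (iv mu A M) nu)

section up

variable {r : ∀ i, ℕ → V i} {mu : ℕ → ℝ} {A M : ℕ} {nu : (∀ i, V i) → ℝ}

theorem law_up (hmu : Law mu A M) (hnu : IsLaw nu) (hac : AC nu (pf r mu A M)) :
    Law (up r mu A M nu) A M :=
  law_ex hmu.pos (isLaw_lift (isLaw_iv hmu).1 hnu hac)

theorem up_le (hmu : Law mu A M) {K : ℝ} (hK : 0 ≤ K) (h : ∀ x, nu x ≤ K * pf r mu A M x)
    (i : ℕ) (hi : i < M) : up r mu A M nu (A + i) ≤ K * mu (A + i) := by
  rw [up, ex_apply A M _ i hi]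
  exact lift_le (isLaw_iv hmu).1 hK h ⟨i, hi⟩

theorem kli_up (hac : AC nu (pf r mu A M)) :
    kli (up r mu A M nu) mu A M = KL nu (pf r mu A M) := by
  rw [kli_eq, up, iv_ex]
  exact KL_lift hac

theorem pf_up (hac : AC nu (pf r mu A M)) : pf r (up r mu A M nu) A M = nu := by
  rw [pf, up, iv_ex]
  exact push_lift hac

/-- the classes of the lifted competitor -/
theorem klr_up {q : ι → ℕ} (hq : ∀ i, 0 < q i)
    (hc : Pairwise fun i j => (q i).Coprime (q j))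
    (hr : ∀ i n m, r i n = r i m ↔ n ≡ m [MOD q i]) (hac : AC nu (pf r mu A M)) (la : ℕ → ℝ)
    (R : Finset ι) :
    klr (up r mu A M nu) la A M (∏ i ∈ R, q i) =
      KL (push (rst R) nu) (push (rst R) (pf r la A M)) := by
  rw [← KL_rst_pf hq hc hr, pf_up hac]

end up

/-- **MEIK for the image law**, base law `la` on the integers, competitors of density at most `K` -/
theorem MEIK_int {q : ι → ℕ} (hq : ∀ i, 0 < q i)
    (hc : Pairwise fun i j => (q i).Coprime (q j)) {r : ∀ i, ℕ → V i}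
    (hr : ∀ i n m, r i n = r i m ↔ n ≡ m [MOD q i]) {mu la : ℕ → ℝ} {A M : ℕ}
    (hmu : Law mu A M) (hla : Law la A M) (hac : ∀ i < M, la (A + i) = 0 → mu (A + i) = 0)
    {t : ι → ℝ} (ht0 : ∀ i, 0 ≤ t i) (ht1 : ∀ i, t i ≤ 1) {B : ℕ} {ε a K q0 : ℝ} (hK : 1 ≤ K)
    (hq0 : ∑ R with ¬ ∏ i ∈ R, q i ≤ B, bw t R ≤ q0)
    (H : ∀ nu : ℕ → ℝ, Law nu A M → (∀ i < M, nu (A + i) ≤ K * mu (A + i)) →
      ∑ R : Finset ι with ∏ i ∈ R, q i ≤ B, bw t R * klr nu la A M (∏ i ∈ R, q i) ≤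
        ε * (kli nu mu A M + a)) :
    MEIK t (2 * (3 + Real.log K) * ε + q0) (4 * (3 + Real.log K) * ε * a) K (pf r mu A M) := by
  have hacX : AC (pf r mu A M) (pf r la A M) := by
    refine AC.push ?_ (isLaw_iv hla).1 _
    intro j hj
    exact hac j j.2 hj
  refine MEIK_of_base ht0 ht1 (fun R => ∏ i ∈ R, q i ≤ B) (isLaw_pf r hmu) (isLaw_pf r hla) hacX
    hK hq0 fun nu hnu hle => ?_
  have hac' : AC nu (pf r mu A M) := AC_of_le hnu.1 hle
  have h := H (up r mu A M nu) (law_up hmu hnu hac') (up_le hmu (by linarith) hle)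
  rw [kli_up hac'] at h
  refine le_trans (le_of_eq ?_) h
  refine Finset.sum_congr rfl fun R _ => ?_
  rw [klr_up hq hc hr hac' la R]

/-- the same relative to the law itself (no logarithm of `K`) -/
theorem MEIK_int_own {q : ι → ℕ} (hq : ∀ i, 0 < q i)
    (hc : Pairwise fun i j => (q i).Coprime (q j)) {r : ∀ i, ℕ → V i}
    (hr : ∀ i n m, r i n = r i m ↔ n ≡ m [MOD q i]) {mu : ℕ → ℝ} {A M : ℕ}
    (hmu : Law mu A M) {t : ι → ℝ} (ht0 : ∀ i, 0 ≤ t i) (ht1 : ∀ i, t i ≤ 1) {B : ℕ}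
    {ε a K q0 : ℝ} (hK : 0 ≤ K)
    (hq0 : ∑ R with ¬ ∏ i ∈ R, q i ≤ B, bw t R ≤ q0)
    (H : ∀ nu : ℕ → ℝ, Law nu A M → (∀ i < M, nu (A + i) ≤ K * mu (A + i)) →
      ∑ R : Finset ι with ∏ i ∈ R, q i ≤ B, bw t R * klr nu mu A M (∏ i ∈ R, q i) ≤
        ε * (kli nu mu A M + a)) :
    MEIK t (ε + q0) (ε * a) K (pf r mu A M) := by
  intro nu hnu hle
  have hac' : AC nu (pf r mu A M) := AC_of_le hnu.1 hle
  have h := H (up r mu A M nu) (law_up hmu hnu hac') (up_le hmu hK hle)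
  rw [kli_up hac'] at h
  have h1 : ∑ R : Finset ι with ∏ i ∈ R, q i ≤ B,
      bw t R * KL (push (rst R) nu) (push (rst R) (pf r mu A M)) ≤
      ε * (KL nu (pf r mu A M) + a) := by
    refine le_trans (le_of_eq ?_) h
    refine Finset.sum_congr rfl fun R _ => ?_
    rw [klr_up hq hc hr hac' mu R]
  have h2 := full_of_trunc ht0 ht1 (fun R : Finset ι => ∏ i ∈ R, q i ≤ B) (isLaw_pf r hmu) hnu
    hac' h1 hq0
  refine h2.trans (le_of_eq ?_)
  ring

end res

/-! ### the probability that the random modulus is too large -/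

section chern

variable {ι : Type*} [Fintype ι] [DecidableEq ι]

theorem sum_bw_prod (t z : ι → ℝ) :
    ∑ R, bw t R * ∏ i ∈ R, z i = ∏ i, (t i * z i + (1 - t i)) := by
  rw [Finset.prod_add, Finset.powerset_univ]
  refine Finset.sum_congr rfl fun R _ => ?_
  rw [bw, Finset.prod_mul_distrib, Finset.compl_eq_univ_sdiff]
  ring

/-- Chernoff: `P(∏_{i ∈ R} q i > B) ≤ B^(-s) exp (∑ t i (q i ^ s - 1))` -/
theorem prob_large {t : ι → ℝ} (ht0 : ∀ i, 0 ≤ t i) (ht1 : ∀ i, t i ≤ 1) {q : ι → ℕ}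
    (hq : ∀ i, 0 < q i) {B : ℕ} (hB : 0 < B) {s : ℝ} (hs : 0 ≤ s) :
    ∑ R with ¬ ∏ i ∈ R, q i ≤ B, bw t R ≤
      (B : ℝ) ^ (-s) * Real.exp (∑ i, t i * ((q i : ℝ) ^ s - 1)) := by
  have hBR : (0 : ℝ) < B := by exact_mod_cast hB
  have hqR : ∀ i, (0 : ℝ) < q i := fun i => by exact_mod_cast hq i
  have h1 : ∑ R with ¬ ∏ i ∈ R, q i ≤ B, bw t R ≤
      ∑ R, bw t R * ((B : ℝ) ^ (-s) * ∏ i ∈ R, (q i : ℝ) ^ s) := by
    rw [Finset.sum_filter]
    refine Finset.sum_le_sum fun R _ => ?_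
    have hb := bw_nonneg ht0 ht1 R
    have hp : 0 ≤ (B : ℝ) ^ (-s) * ∏ i ∈ R, (q i : ℝ) ^ s :=
      mul_nonneg (Real.rpow_nonneg hBR.le _)
        (Finset.prod_nonneg fun i _ => Real.rpow_nonneg (hqR i).le _)
    by_cases h : ∏ i ∈ R, q i ≤ B
    · rw [if_neg (not_not.2 h)]
      exact mul_nonneg hb hp
    · rw [if_pos h]
      have h2 : (B : ℝ) ≤ ∏ i ∈ R, (q i : ℝ) := by
        have h3 : B ≤ ∏ i ∈ R, q i := (not_le.1 h).le
        exact_mod_cast h3
      have h3 : (1 : ℝ) ≤ (B : ℝ) ^ (-s) * ∏ i ∈ R, (q i : ℝ) ^ s := by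
        rw [Real.finsetProd_rpow _ _ (fun i _ => (hqR i).le), Real.rpow_neg hBR.le,
          inv_mul_eq_div, one_le_div (Real.rpow_pos_of_pos hBR s)]
        exact Real.rpow_le_rpow hBR.le h2 hs
      calc bw t R = bw t R * 1 := (mul_one _).symm
        _ ≤ _ := mul_le_mul_of_nonneg_left h3 hb
  refine h1.trans ?_
  have h2 : ∑ R, bw t R * ((B : ℝ) ^ (-s) * ∏ i ∈ R, (q i : ℝ) ^ s) =
      (B : ℝ) ^ (-s) * ∑ R, bw t R * ∏ i ∈ R, (q i : ℝ) ^ s := by
    rw [Finset.mul_sum]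
    exact Finset.sum_congr rfl fun R _ => by ring
  rw [h2, sum_bw_prod, Real.exp_sum]
  refine mul_le_mul_of_nonneg_left ?_ (Real.rpow_nonneg hBR.le _)
  refine Finset.prod_le_prod (fun i _ => ?_) fun i _ => ?_
  · exact add_nonneg (mul_nonneg (ht0 i) (Real.rpow_nonneg (hqR i).le _)) (by linarith [ht1 i])
  · have h3 := Real.add_one_le_exp (t i * ((q i : ℝ) ^ s - 1))
    calc t i * (q i : ℝ) ^ s + (1 - t i) = t i * ((q i : ℝ) ^ s - 1) + 1 := by ring
      _ ≤ _ := h3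

end chern

end Vale.Agent.P042.H858
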