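import Vale.Agent.P042.H742.Defs

/-!
# P042, seam [D] → [B], row B.8 (1): lifting competitors, data processing, change of base law

`lift f mu nu`: the law on the source with the same density as `nu` with respect to `push f mu`.
`hel`: squared Hellinger distance. `MEIK_of_base`: from the multi-coordinate entropy inequality
relative to a base law to the one relative to the law itself.
-/

set_option autoImplicit false
set_option linter.unusedSectionVars false

namespace Vale.Agent.P042.H858

open Finset Vale.Agent.P042.H461 Vale.Agent.P042.H416 Vale.Agent.P042.H742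

/-! ### lifting -/

section lift

variable {Ω X : Type*} [Fintype Ω] [Fintype X] [DecidableEq X]

/-- the law on `Ω` with density `d nu / d (push f mu)` with respect to `mu` -/
noncomputable def lift (f : Ω → X) (mu : Ω → ℝ) (nu : X → ℝ) (w : Ω) : ℝ :=
  mu w * (nu (f w) / push f mu (f w))

variable {f : Ω → X} {mu : Ω → ℝ} {nu : X → ℝ}

theorem lift_nonneg (hmu : ∀ w, 0 ≤ mu w) (hnu : ∀ x, 0 ≤ nu x) (w : Ω) :
    0 ≤ lift f mu nu w :=
  mul_nonneg (hmu w) (div_nonneg (hnu _) (push_nonneg hmu f _))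

theorem sum_lift_mul (hac : AC nu (push f mu)) (g : X → ℝ) :
    ∑ w, lift f mu nu w * g (f w) = ∑ x, nu x * g x := by
  have h1 : ∀ w, lift f mu nu w * g (f w) = mu w * (nu (f w) / push f mu (f w) * g (f w)) := by
    intro w
    rw [lift, mul_assoc]
  rw [Finset.sum_congr rfl fun w _ => h1 w,
    ← sum_push f mu fun x => nu x / push f mu x * g x]
  refine Finset.sum_congr rfl fun x _ => ?_
  by_cases h : push f mu x = 0
  · rw [h, hac x h, zero_mul, zero_mul]
  · rw [← mul_assoc, mul_div_cancel₀ _ h]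

theorem isLaw_lift (hmu : ∀ w, 0 ≤ mu w) (hnu : IsLaw nu) (hac : AC nu (push f mu)) :
    IsLaw (lift f mu nu) := by
  refine ⟨lift_nonneg hmu hnu.1, ?_⟩
  have h := sum_lift_mul hac fun _ => 1
  simp only [mul_one] at h
  rw [h, hnu.2]

theorem push_lift (hac : AC nu (push f mu)) : push f (lift f mu nu) = nu := by
  funext x
  have h := sum_lift_mul hac fun y => if y = x then 1 else 0
  simp only [mul_ite, mul_one, mul_zero, Finset.sum_ite_eq', Finset.mem_univ, if_true] at h
  rw [← h, push, Finset.sum_filter]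

theorem AC_lift : AC (lift f mu nu) mu := by
  intro w hw
  rw [lift, hw, zero_mul]

/-- lifting does not change the relative entropy -/
theorem KL_lift (hac : AC nu (push f mu)) :
    KL (lift f mu nu) mu = KL nu (push f mu) := by
  have h := sum_lift_mul hac fun x => Real.log (nu x / push f mu x)
  unfold KL
  rw [← h]
  refine Finset.sum_congr rfl fun w _ => ?_
  by_cases hw : mu w = 0
  · rw [AC_lift w hw, zero_mul, zero_mul]
  · rw [lift, mul_div_cancel_left₀ _ hw]

/-- the density bound lifts -/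
theorem lift_le (hmu : ∀ w, 0 ≤ mu w) {K : ℝ} (hK : 0 ≤ K) (h : ∀ x, nu x ≤ K * push f mu x)
    (w : Ω) : lift f mu nu w ≤ K * mu w := by
  rw [lift, mul_comm K]
  refine mul_le_mul_of_nonneg_left ?_ (hmu w)
  rcases (push_nonneg hmu f (f w)).eq_or_lt with h0 | h0
  · rw [← h0, div_zero]; exact hK
  · rw [div_le_iff₀ h0]; exact h _

/-- two push-forwards of the lifted law -/
theorem push_comp_lift {Z : Type*} [Fintype Z] [DecidableEq Z] (hac : AC nu (push f mu))
    (g : X → Z) : push (g ∘ f) (lift f mu nu) = push g nu := by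
  rw [← push_push f g, push_lift hac]

end lift

/-! ### data processing -/

section dp

variable {X : Type*} [Fintype X] {Y : Type*} [Fintype Y] [DecidableEq Y]

theorem gibbs {x y : ℝ} (hx : 0 ≤ x) (hy : 0 ≤ y) (h : y = 0 → x = 0) :
    x - y ≤ x * Real.log (x / y) := by
  rcases hx.eq_or_lt with h0 | h0
  · rw [← h0]; simp [hy]
  · rcases hy.eq_or_lt with h1 | h1
    · exact absurd (h h1.symm) h0.ne'
    · have h2 := Real.log_le_sub_one_of_pos (div_pos h1 h0)
      have h3 : Real.log (x / y) = -Real.log (y / x) := by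
        rw [← Real.log_inv, inv_div]
      have h4 := mul_le_mul_of_nonneg_left h2 h0.le
      have h5 : x * (y / x - 1) = y - x := by field_simp
      rw [h3]
      linarith

/-- data processing for the relative entropy -/
theorem KL_push_le {nu mu : X → ℝ} (hnu : ∀ x, 0 ≤ nu x) (hmu : ∀ x, 0 ≤ mu x)
    (hac : AC nu mu) (f : X → Y) : KL (push f nu) (push f mu) ≤ KL nu mu := by
  have h1 : KL (push f nu) (push f mu) =
      ∑ x, nu x * Real.log (push f nu (f x) / push f mu (f x)) := by
    unfold KL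
    exact sum_push f nu fun y => Real.log (push f nu y / push f mu y)
  have h2 : ∀ x, nu x * Real.log (push f nu (f x) / push f mu (f x)) ≤
      nu x * Real.log (nu x / mu x) - nu x +
        mu x * (push f nu (f x) / push f mu (f x)) := by
    intro x
    by_cases hx : nu x = 0
    · rw [hx, zero_mul, zero_mul, sub_zero, zero_add]
      exact mul_nonneg (hmu x) (div_nonneg (push_nonneg hnu f _) (push_nonneg hmu f _))
    · have hnx : 0 < nu x := lt_of_le_of_ne (hnu x) (Ne.symm hx)
      have hmx : 0 < mu x := lt_of_le_of_ne (hmu x) fun h => hx (hac x h.symm)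
      have hpn : 0 < push f nu (f x) := lt_of_lt_of_le hnx (le_push hnu f x)
      have hpm : 0 < push f mu (f x) := lt_of_lt_of_le hmx (le_push hmu f x)
      have hr0 : 0 < push f nu (f x) / push f mu (f x) := div_pos hpn hpm
      have h3 := gibbs hnx.le (mul_pos hmx hr0).le (fun h => absurd h (mul_pos hmx hr0).ne')
      have h4 : nu x / (mu x * (push f nu (f x) / push f mu (f x))) =
          nu x / mu x / (push f nu (f x) / push f mu (f x)) := by
        rw [div_div]
      rw [h4, Real.log_div (div_pos hnx hmx).ne' hr0.ne', mul_sub] at h3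
      linarith
  rw [h1]
  refine (Finset.sum_le_sum fun x _ => h2 x).trans ?_
  rw [Finset.sum_add_distrib, Finset.sum_sub_distrib]
  have h3 : ∑ x, mu x * (push f nu (f x) / push f mu (f x)) ≤ ∑ x, nu x := by
    rw [← sum_push f mu fun y => push f nu y / push f mu y, ← sum_push_one f nu]
    refine Finset.sum_le_sum fun y _ => ?_
    by_cases h : push f mu y = 0
    · rw [h, zero_mul]
      exact push_nonneg hnu f y
    · rw [mul_div_cancel₀ _ h]
  have h4 : KL nu mu = ∑ x, nu x * Real.log (nu x / mu x) := rfl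
  rw [h4]
  linarith

end dp

/-! ### Hellinger -/

section hel

variable {X : Type*} [Fintype X]

/-- squared Hellinger distance -/
noncomputable def hel (nu mu : X → ℝ) : ℝ := ∑ x, (√(nu x) - √(mu x)) ^ 2

theorem hel_nonneg (nu mu : X → ℝ) : 0 ≤ hel nu mu := Finset.sum_nonneg fun _ _ => sq_nonneg _

theorem hel_comm (nu mu : X → ℝ) : hel nu mu = hel mu nu := by
  unfold hel
  exact Finset.sum_congr rfl fun x _ => by ring

theorem hel_triangle (nu mu la : X → ℝ) : hel nu mu ≤ 2 * hel nu la + 2 * hel mu la := by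
  unfold hel
  rw [Finset.mul_sum, Finset.mul_sum, ← Finset.sum_add_distrib]
  refine Finset.sum_le_sum fun x _ => ?_
  nlinarith [sq_nonneg (√(nu x) + √(mu x) - 2 * √(la x))]

theorem hel_le_KL {nu mu : X → ℝ} (hnu : IsLaw nu) (hmu : IsLaw mu) (hac : AC nu mu) :
    hel nu mu ≤ KL nu mu := by
  have h := hellinger_le_KL hnu.1 hmu.1 hac
  rw [hnu.2, hmu.2] at h
  simpa [hel] using h

/-- scalar inequality -/
theorem scalar {s K : ℝ} (hs : 0 ≤ s) (hK : 1 ≤ K) (h : s ^ 2 ≤ K) :
    s ^ 2 * Real.log (s ^ 2) - s ^ 2 + 1 ≤ (3 + Real.log K) * (s - 1) ^ 2 := by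
  have hlK : 0 ≤ Real.log K := Real.log_nonneg hK
  rcases hs.eq_or_lt with h0 | h0
  · rw [← h0]; norm_num; linarith
  · have h1 : Real.log (s ^ 2) = 2 * Real.log s := by rw [Real.log_pow]; norm_num
    have h2 : Real.log s ≤ s - 1 := Real.log_le_sub_one_of_pos h0
    rw [h1]
    rcases le_total 1 s with hs1 | hs1
    · have h3 : 2 * Real.log s ≤ Real.log K := by
        rw [← h1]
        exact Real.log_le_log (by positivity) h
      have h4 : 2 * Real.log s * (s - 1) ^ 2 ≤ Real.log K * (s - 1) ^ 2 :=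
        mul_le_mul_of_nonneg_right h3 (sq_nonneg _)
      have h5 : (2 * (2 * s - 1)) * Real.log s ≤ (2 * (2 * s - 1)) * (s - 1) :=
        mul_le_mul_of_nonneg_left h2 (by linarith)
      nlinarith
    · have h4 : 0 ≤ Real.log K * (s - 1) ^ 2 := mul_nonneg hlK (sq_nonneg _)
      have h5 : (2 * s ^ 2) * Real.log s ≤ (2 * s ^ 2) * (s - 1) :=
        mul_le_mul_of_nonneg_left h2 (by positivity)
      have h6 : (s - 1) ^ 2 * (2 * s + 1) ≤ (s - 1) ^ 2 * 3 :=
        mul_le_mul_of_nonneg_left (by linarith) (sq_nonneg _)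
      nlinarith

/-- for a bounded density the relative entropy is at most the Hellinger distance times a logarithm -/
theorem KL_le_hel {nu mu : X → ℝ} (hnu : IsLaw nu) (hmu : IsLaw mu) {K : ℝ} (hK : 1 ≤ K)
    (h : ∀ x, nu x ≤ K * mu x) : KL nu mu ≤ (3 + Real.log K) * hel nu mu := by
  have hpt : ∀ x, nu x * Real.log (nu x / mu x) - nu x + mu x ≤
      (3 + Real.log K) * (√(nu x) - √(mu x)) ^ 2 := by
    intro x
    rcases (hmu.1 x).eq_or_lt with h0 | h0
    · have h1 : nu x = 0 := le_antisymm (by have := h x; rw [← h0, mul_zero] at this; exact this)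
        (hnu.1 x)
      rw [h1, ← h0]; simp
    · have hs0 : 0 ≤ √(nu x / mu x) := Real.sqrt_nonneg _
      have hsq : √(nu x / mu x) ^ 2 = nu x / mu x :=
        Real.sq_sqrt (div_nonneg (hnu.1 x) h0.le)
      have h1 := scalar hs0 hK (by rw [hsq, div_le_iff₀ h0]; exact h x)
      rw [hsq] at h1
      have h2 := mul_le_mul_of_nonneg_left h1 h0.le
      have h3 : mu x * (nu x / mu x * Real.log (nu x / mu x) - nu x / mu x + 1) =
          nu x * Real.log (nu x / mu x) - nu x + mu x := by
        field_simp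
      have h4 : mu x * ((3 + Real.log K) * (√(nu x / mu x) - 1) ^ 2) =
          (3 + Real.log K) * (√(nu x) - √(mu x)) ^ 2 := by
        rw [Real.sqrt_div (hnu.1 x)]
        have h5 : mu x = √(mu x) ^ 2 := (Real.sq_sqrt h0.le).symm
        have h6 : √(mu x) ≠ 0 := (Real.sqrt_pos.2 h0).ne'
        conv_lhs => rw [h5]
        rw [Real.sqrt_sq (Real.sqrt_nonneg _)]
        field_simp
      linarith
  have hsum := Finset.sum_le_sum fun x (_ : x ∈ univ) => hpt x
  rw [Finset.sum_add_distrib, Finset.sum_sub_distrib, hnu.2, hmu.2, ← Finset.mul_sum] at hsum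
  unfold KL hel
  linarith

theorem AC_of_le {nu mu : X → ℝ} (hnu : ∀ x, 0 ≤ nu x) {K : ℝ} (h : ∀ x, nu x ≤ K * mu x) :
    AC nu mu := by
  intro x hx
  have := h x
  rw [hx, mul_zero] at this
  exact le_antisymm this (hnu x)

theorem AC_trans {a b c : X → ℝ} (h1 : AC a b) (h2 : AC b c) : AC a c :=
  fun x hx => h1 x (h2 x hx)

/-- from a base law `la` to the law `mu` itself, bounded densities -/
theorem KL_change_base {nu mu la : X → ℝ} (hnu : IsLaw nu) (hmu : IsLaw mu) (hla : IsLaw la)
    {K : ℝ} (hK : 1 ≤ K) (h : ∀ x, nu x ≤ K * mu x) (hac : AC mu la) :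
    KL nu mu ≤ 2 * (3 + Real.log K) * (KL nu la + KL mu la) := by
  have h1 := KL_le_hel hnu hmu hK h
  have h2 := hel_triangle nu mu la
  have h3 := hel_le_KL hnu hla (AC_trans (AC_of_le hnu.1 h) hac)
  have h4 := hel_le_KL hmu hla hac
  have h5 : 0 ≤ 3 + Real.log K := by linarith [Real.log_nonneg hK]
  calc KL nu mu ≤ (3 + Real.log K) * hel nu mu := h1
    _ ≤ (3 + Real.log K) * (2 * KL nu la + 2 * KL mu la) :=
        mul_le_mul_of_nonneg_left (by linarith) h5
    _ = _ := by ring

end hel

/-! ### the seam on a product space -/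

section prod

variable {ι : Type*} [Fintype ι] [DecidableEq ι] {V : ι → Type*} [∀ i, Fintype (V i)]
  [∀ i, DecidableEq (V i)]

theorem push_le {X : Type*} [Fintype X] {Y : Type*} [Fintype Y] [DecidableEq Y] (f : X → Y)
    {nu mu : X → ℝ} {K : ℝ} (h : ∀ x, nu x ≤ K * mu x) (y : Y) :
    push f nu y ≤ K * push f mu y := by
  unfold push
  rw [Finset.mul_sum]
  exact Finset.sum_le_sum fun x _ => h x

/-- **base law ⟹ own law**: weights `w R` (not necessarily Bernoulli), base law `la`, defect `a` -/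
theorem own_of_base {w : Finset ι → ℝ} (hw : ∀ R, 0 ≤ w R) {mu la : (∀ i, V i) → ℝ}
    (hmu : IsLaw mu) (hla : IsLaw la) (hac : AC mu la) {ε a K : ℝ} (hK : 1 ≤ K)
    (hbase : ∀ nu : (∀ i, V i) → ℝ, IsLaw nu → (∀ x, nu x ≤ K * mu x) →
      ∑ R, w R * KL (push (rst R) nu) (push (rst R) la) ≤ ε * (KL nu mu + a))
    {nu : (∀ i, V i) → ℝ} (hnu : IsLaw nu) (hle : ∀ x, nu x ≤ K * mu x) :
    ∑ R, w R * KL (push (rst R) nu) (push (rst R) mu) ≤
      2 * (3 + Real.log K) * (ε * (KL nu mu + 2 * a)) := by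
  have h1 := hbase nu hnu hle
  have h2 := hbase mu hmu fun x => by
    have := mul_le_mul_of_nonneg_right hK (hmu.1 x)
    linarith
  rw [KL_self, zero_add] at h2
  have h5 : 0 ≤ 2 * (3 + Real.log K) := by linarith [Real.log_nonneg hK]
  have h3 : ∀ R : Finset ι, w R * KL (push (rst R) nu) (push (rst R) mu) ≤
      2 * (3 + Real.log K) * (w R * KL (push (rst R) nu) (push (rst R) la) +
        w R * KL (push (rst R) mu) (push (rst R) la)) := by
    intro R
    have h := KL_change_base (hnu.push (rst R)) (hmu.push (rst R)) (hla.push (rst R)) hK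
      (push_le (rst R) hle) (hac.push hla.1 (rst R))
    have h' := mul_le_mul_of_nonneg_left h (hw R)
    refine h'.trans (le_of_eq ?_)
    ring
  refine (Finset.sum_le_sum fun R _ => h3 R).trans ?_
  rw [← Finset.mul_sum, Finset.sum_add_distrib]
  refine mul_le_mul_of_nonneg_left ?_ h5
  linarith

/-- **truncated ⟹ full Bernoulli**: the sets `R` outside `ok` are paid by their probability -/
theorem full_of_trunc {t : ι → ℝ} (ht0 : ∀ i, 0 ≤ t i) (ht1 : ∀ i, t i ≤ 1)
    (ok : Finset ι → Prop) [DecidablePred ok] {mu nu : (∀ i, V i) → ℝ} (hmu : IsLaw mu)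
    (hnu : IsLaw nu) (hac : AC nu mu) {B q : ℝ}
    (hB : ∑ R with ok R, bw t R * KL (push (rst R) nu) (push (rst R) mu) ≤ B)
    (hq : ∑ R with ¬ ok R, bw t R ≤ q) :
    ∑ R, bw t R * KL (push (rst R) nu) (push (rst R) mu) ≤ B + q * KL nu mu := by
  rw [← Finset.sum_filter_add_sum_filter_not univ ok]
  refine add_le_add hB ?_
  have hk : 0 ≤ KL nu mu := hnu.KL_nonneg hmu hac
  have h1 : ∑ R with ¬ ok R, bw t R * KL (push (rst R) nu) (push (rst R) mu) ≤
      ∑ R with ¬ ok R, bw t R * KL nu mu :=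
    Finset.sum_le_sum fun R _ => mul_le_mul_of_nonneg_left
      (KL_push_le hnu.1 hmu.1 hac (rst R)) (bw_nonneg ht0 ht1 R)
  refine h1.trans ?_
  rw [← Finset.sum_mul]
  exact mul_le_mul_of_nonneg_right hq hk

/-- MEIK (742) from the truncated inequality relative to a base law -/
theorem MEIK_of_base {t : ι → ℝ} (ht0 : ∀ i, 0 ≤ t i) (ht1 : ∀ i, t i ≤ 1)
    (ok : Finset ι → Prop) [DecidablePred ok] {mu la : (∀ i, V i) → ℝ} (hmu : IsLaw mu)
    (hla : IsLaw la) (hac : AC mu la) {ε a K q : ℝ} (hK : 1 ≤ K)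
    (hq : ∑ R with ¬ ok R, bw t R ≤ q)
    (hbase : ∀ nu : (∀ i, V i) → ℝ, IsLaw nu → (∀ x, nu x ≤ K * mu x) →
      ∑ R with ok R, bw t R * KL (push (rst R) nu) (push (rst R) la) ≤ ε * (KL nu mu + a)) :
    MEIK t (2 * (3 + Real.log K) * ε + q) (4 * (3 + Real.log K) * ε * a) K mu := by
  intro nu hnu hle
  have hac' : AC nu mu := AC_of_le hnu.1 hle
  have hw : ∀ R : Finset ι, 0 ≤ (if ok R then bw t R else 0) := fun R => by
    split_ifs
    · exact bw_nonneg ht0 ht1 R
    · exact le_rfl
  have hconv : ∀ nu' mu' : (∀ i, V i) → ℝ,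
      ∑ R, (if ok R then bw t R else 0) * KL (push (rst R) nu') (push (rst R) mu') =
      ∑ R with ok R, bw t R * KL (push (rst R) nu') (push (rst R) mu') := by
    intro nu' mu'
    rw [Finset.sum_filter]
    exact Finset.sum_congr rfl fun R _ => by split_ifs <;> simp
  have h1 := own_of_base hw hmu hla hac hK (fun nu' h' hle' => by
    rw [hconv]; exact hbase nu' h' hle') hnu hle
  rw [hconv] at h1
  have h2 := full_of_trunc ht0 ht1 ok hmu hnu hac' h1 hq
  refine h2.trans (le_of_eq ?_)
  ring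

end prod

end Vale.Agent.P042.H858
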