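import Vale.Agent.P042.H365.Marg
import Vale.Agent.P042.H858.Lift
import Vale.Agent.P042.H48.Tot5
import Vale.Agent.P042.H742.BNum

/-!
# P042, leaf (A) of BdTN (helper365 #10375): marginal laws

Bernoulli averages are monotone in the rates; `MEIK`, the entropies of testing and the totals pass
to the marginal law on the coordinates with `p`.
-/

set_option autoImplicit false
set_option linter.unusedSectionVars false

namespace Vale.Agent.P042.H858

open Finset Vale.Agent.P042.H461 Vale.Agent.P042.H416 Vale.Agent.P042.H742 Vale.Agent.P042.H365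
open Vale.Agent.P042.H779 (marg m1)
open Vale.Agent.P042.H779.Ab (Lo At)

/-! ### Bernoulli averages -/

section avg

variable {ι : Type*} [Fintype ι] [DecidableEq ι]

/-- **Bernoulli averages of increasing functions are increasing in the rates** -/
theorem bw_mono {t t' : ι → ℝ} (h0 : ∀ i, 0 ≤ t' i) (h : ∀ i, t' i ≤ t i) (h1 : ∀ i, t i ≤ 1)
    {F : Finset ι → ℝ} (hF : ∀ R R' : Finset ι, R ⊆ R' → F R ≤ F R') :
    ∑ R, bw t' R * F R ≤ ∑ R, bw t R * F R := by
  set u : ι → ℝ := fun i => (t i - t' i) / (1 - t' i) with hu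
  have h1' : ∀ i, t' i ≤ 1 := fun i => (h i).trans (h1 i)
  have hu0 : ∀ i, 0 ≤ u i := fun i =>
    div_nonneg (by linarith [h i]) (by linarith [h1' i])
  have hu1 : ∀ i, u i ≤ 1 := fun i => div_le_one_of_le₀ (by linarith [h1 i]) (by linarith [h1' i])
  have htu : H48.tu t' u = t := by
    funext i
    unfold H48.tu
    rw [hu]
    by_cases hi : 1 - t' i = 0
    · have h2 : t' i = 1 := by linarith
      have h3 : t i = 1 := le_antisymm (h1 i) (by linarith [h i])
      simp [h2, h3]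
    · field_simp
      ring
  rw [← htu, ← H48.avg_union]
  refine Finset.sum_le_sum fun R _ => ?_
  have h2 : ∑ R', bw t' R * bw u R' * F R = bw t' R * F R := by
    rw [← Finset.sum_mul, ← Finset.mul_sum, sum_bw, mul_one]
  rw [← h2]
  exact Finset.sum_le_sum fun R' _ => mul_le_mul_of_nonneg_left
    (hF _ _ Finset.subset_union_left) (mul_nonneg (bw_nonneg h0 h1' R) (bw_nonneg hu0 hu1 R'))

variable (p : ι → Prop) [DecidablePred p]

/-- the rates extended by zero -/
def ext0 (t' : {i // p i} → ℝ) (j : ι) : ℝ := if h : p j then t' ⟨j, h⟩ else 0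

theorem ext0_val (t' : {i // p i} → ℝ) (i : {i // p i}) : ext0 p t' i = t' i := by
  unfold ext0
  rw [dif_pos i.2]

theorem ext0_nonneg {t' : {i // p i} → ℝ} (h : ∀ i, 0 ≤ t' i) (j : ι) : 0 ≤ ext0 p t' j := by
  unfold ext0
  split_ifs with hj
  · exact h _
  · exact le_rfl

theorem ext0_le {t' : {i // p i} → ℝ} {t : ι → ℝ} (h : ∀ i, t' i ≤ t i) (h0 : ∀ i, 0 ≤ t i)
    (j : ι) : ext0 p t' j ≤ t j := by
  unfold ext0
  split_ifs with hj
  · exact h ⟨j, hj⟩
  · exact h0 j

/-- **marginal of the Bernoulli law** -/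
theorem sum_bw_sub (t : ι → ℝ) (G : Finset {i // p i} → ℝ) :
    ∑ R : Finset ι, bw t R * G (R.subtype p) =
      ∑ R' : Finset {i // p i}, bw (fun i : {i // p i} => t i) R' * G R' := by
  have key : ∀ D : Finset {i // p i}, (∑ R : Finset ι, if R.subtype p = D then bw t R else 0) =
      bw (fun i : {i // p i} => t i) D := by
    intro D
    refine H48.eq_of_down
      (A := fun D => ∑ R : Finset ι, if R.subtype p = D then bw t R else 0)
      (B := bw (fun i : {i // p i} => t i)) (fun D => ?_) D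
    rw [H48.sum_bw_subset, Finset.sum_comm]
    set D2 : Finset ι := univ.filter fun i => ∀ h : p i, (⟨i, h⟩ : {i // p i}) ∈ D with hD2
    have h1 : ∀ R : Finset ι, (∑ E ∈ D.powerset, if R.subtype p = E then bw t R else 0) =
        if R ⊆ D2 then bw t R else 0 := by
      intro R
      rw [Finset.sum_ite_eq]
      congr 1
      rw [Finset.mem_powerset]
      refine propext ⟨fun h i hi => ?_, fun h i hi => ?_⟩
      · rw [hD2, Finset.mem_filter]
        exact ⟨Finset.mem_univ _, fun hp => h (Finset.mem_subtype.2 hi)⟩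
      · have h2 := h (Finset.mem_subtype.1 hi)
        rw [hD2, Finset.mem_filter] at h2
        exact h2.2 i.2
    rw [Finset.sum_congr rfl fun R _ => h1 R, ← Finset.sum_filter]
    have h5 : (univ.filter fun R : Finset ι => R ⊆ D2) = D2.powerset := by
      ext E
      simp
    rw [h5, H48.sum_bw_subset]
    have h6 : D2ᶜ = (Dᶜ).map (Function.Embedding.subtype p) := by
      ext i
      simp only [Finset.mem_compl, hD2, Finset.mem_filter, Finset.mem_univ, true_and, not_forall,
        Finset.mem_map, Function.Embedding.coe_subtype, Subtype.exists]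
      constructor
      · rintro ⟨hp, h⟩
        exact ⟨i, hp, h, rfl⟩
      · rintro ⟨j, hp, h, rfl⟩
        exact ⟨hp, h⟩
    rw [h6, Finset.prod_map]
    rfl
  have h1 : ∀ R : Finset ι, bw t R * G (R.subtype p) =
      ∑ D, (if R.subtype p = D then bw t R else 0) * G D := by
    intro R
    simp only [ite_mul, zero_mul]
    rw [Finset.sum_ite_eq, if_pos (Finset.mem_univ _)]
  rw [Finset.sum_congr rfl fun R _ => h1 R, Finset.sum_comm]
  refine Finset.sum_congr rfl fun D _ => ?_
  rw [← key D, Finset.sum_mul]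

/-- sums over sites of the extended rates -/
theorem sum_ext0 (t' : {i // p i} → ℝ) (S : Finset ι) (f : ι → ℝ) :
    ∑ i ∈ S, ext0 p t' i * f i = ∑ i ∈ S.subtype p, t' i * f i := by
  have h1 : ∑ i ∈ S.subtype p, t' i * f i =
      ∑ i ∈ S.subtype p, (fun j => ext0 p t' j * f j) (i : ι) :=
    Finset.sum_congr rfl fun i _ => by simp only [ext0_val]
  rw [h1, Finset.sum_subtype_eq_sum_filter (fun j => ext0 p t' j * f j), Finset.sum_filter]
  refine Finset.sum_congr rfl fun i _ => ?_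
  unfold ext0
  split_ifs
  · rfl
  · rw [zero_mul]

/-- a set outside `p` has weight zero for the extended rates -/
theorem bw_ext0_eq_zero (t' : {i // p i} → ℝ) {R : Finset ι} (h : ¬ ∀ i ∈ R, p i) :
    bw (ext0 p t') R = 0 := by
  obtain ⟨i, hi, hp⟩ : ∃ i ∈ R, ¬ p i := by
    by_contra hc
    exact h fun i hi => by
      by_contra hp
      exact hc ⟨i, hi, hp⟩
  refine H48.bw_eq_zero (i := i) ?_ hi
  unfold ext0
  rw [dif_neg hp]

/-- averages with the extended rates -/
theorem sum_bw_ext0 (t' : {i // p i} → ℝ) (G : Finset {i // p i} → ℝ) :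
    ∑ R : Finset ι, bw (ext0 p t') R * G (R.subtype p) = ∑ R', bw t' R' * G R' := by
  rw [sum_bw_sub]
  refine Finset.sum_congr rfl fun R' _ => ?_
  congr 2
  funext i
  exact ext0_val p t' i

end avg

/-! ### laws -/

section laws

variable {ι : Type*} [Fintype ι] [DecidableEq ι] {V : ι → Type*} [∀ i, Fintype (V i)]
  [∀ i, DecidableEq (V i)]

/-- the relative entropies of the marginals increase with the set of coordinates -/
theorem KL_rst_mono {nu mu : (∀ i, V i) → ℝ} (hnu : ∀ x, 0 ≤ nu x) (hmu : ∀ x, 0 ≤ mu x)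
    (hac : AC nu mu) {R R' : Finset ι} (h : R ⊆ R') :
    KL (push (rst R) nu) (push (rst R) mu) ≤ KL (push (rst R') nu) (push (rst R') mu) := by
  have h1 : ∀ la : (∀ i, V i) → ℝ, push (rst R) la =
      push (fun (y : ∀ i : {i // i ∈ R'}, V i) (i : {i // i ∈ R}) => y ⟨i, h i.2⟩)
        (push (rst R') la) := by
    intro la
    rw [push_push]
    rfl
  rw [h1 nu, h1 mu]
  exact H858.KL_push_le (push_nonneg hnu _) (push_nonneg hmu _) (hac.push hmu _) _

/-- (2) `MEIK` is monotone in all parameters -/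
theorem MEIK_mono {t t' : ι → ℝ} {ε ε' e1 e1' K K' : ℝ} {mu : (∀ i, V i) → ℝ}
    (h : MEIK t ε e1 K mu) (hmu : IsLaw mu) (h0 : ∀ i, 0 ≤ t' i) (ht : ∀ i, t' i ≤ t i)
    (h1 : ∀ i, t i ≤ 1) (hε : ε ≤ ε') (he : e1 ≤ e1') (hK : K' ≤ K) :
    MEIK t' ε' e1' K' mu := by
  intro nu hnu hle
  have hac : AC nu mu := AC_of_le hnu.1 hle
  have h2 : ∀ x, nu x ≤ K * mu x := fun x =>
    (hle x).trans (mul_le_mul_of_nonneg_right hK (hmu.1 x))
  have h3 := bw_mono h0 ht h1
    (F := fun R => KL (push (rst R) nu) (push (rst R) mu)) fun R R' hR =>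
      KL_rst_mono hnu.1 hmu.1 hac hR
  have h4 := h nu hnu h2
  have h5 := mul_le_mul_of_nonneg_right hε (hnu.KL_nonneg hmu hac)
  linarith

variable (p : ι → Prop) [DecidablePred p]

/-- restriction commutes with the marginal law -/
theorem push_rst_msub (R : Finset ι) (la : (∀ i, V i) → ℝ) :
    push (rst (R.subtype p)) (msub p la) =
      push (fun (y : ∀ i : {i // i ∈ R}, V i) (j : {j : {i // p i} // j ∈ R.subtype p}) =>
        (y ⟨j.1.1, Finset.mem_subtype.1 j.2⟩ : V j.1.1)) (push (rst R) la) := by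
  unfold msub
  rw [push_push, push_push]
  rfl

theorem KL_sub_le {nu mu : (∀ i, V i) → ℝ} (hnu : ∀ x, 0 ≤ nu x) (hmu : ∀ x, 0 ≤ mu x)
    (hac : AC nu mu) (R : Finset ι) :
    KL (push (rst (R.subtype p)) (msub p nu)) (push (rst (R.subtype p)) (msub p mu)) ≤
      KL (push (rst R) nu) (push (rst R) mu) := by
  rw [push_rst_msub, push_rst_msub]
  exact H858.KL_push_le (push_nonneg hnu _) (push_nonneg hmu _) (hac.push hmu _) _

theorem KL_sub_eq {nu mu : (∀ i, V i) → ℝ} (hnu : ∀ x, 0 ≤ nu x) (hmu : ∀ x, 0 ≤ mu x)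
    (hac : AC nu mu) {R : Finset ι} (hR : ∀ i ∈ R, p i) :
    KL (push (rst (R.subtype p)) (msub p nu)) (push (rst (R.subtype p)) (msub p mu)) =
      KL (push (rst R) nu) (push (rst R) mu) := by
  refine le_antisymm (KL_sub_le p hnu hmu hac R) ?_
  have h1 : ∀ la : (∀ i, V i) → ℝ, push (rst R) la =
      push (fun (y : ∀ j : {j : {i // p i} // j ∈ R.subtype p}, V j.1.1) (i : {i // i ∈ R}) =>
        (y ⟨⟨i.1, hR i.1 i.2⟩, Finset.mem_subtype.2 i.2⟩ : V i.1))
        (push (rst (R.subtype p)) (msub p la)) := by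
    intro la
    unfold msub
    rw [push_push, push_push]
    rfl
  rw [h1 nu, h1 mu]
  refine H858.KL_push_le (push_nonneg (push_nonneg hnu _) _) (push_nonneg (push_nonneg hmu _) _)
    ((hac.push hmu (rsub p)).push (push_nonneg hmu _) _) _

/-- (3) **`MEIK` for the marginal law** -/
theorem MEIK_sub {t : ι → ℝ} {t' : {i // p i} → ℝ} {ε e1 K : ℝ} {mu : (∀ i, V i) → ℝ}
    (h : MEIK t ε e1 K mu) (hmu : IsLaw mu) (h0' : ∀ i, 0 ≤ t' i) (ht : ∀ i, t' i ≤ t i)
    (h0 : ∀ i, 0 ≤ t i) (h1 : ∀ i, t i ≤ 1) : MEIK t' ε e1 K (msub p mu) := by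
  intro nu hnu hle
  have hms : IsLaw (msub p mu) := msub_isLaw hmu
  have hac : AC nu (msub p mu) := AC_of_le hnu.1 hle
  have hK : 0 ≤ K := by
    have h2 : ∑ x, nu x ≤ ∑ x, K * msub p mu x := Finset.sum_le_sum fun x _ => hle x
    rw [← Finset.mul_sum, hnu.2, hms.2, mul_one] at h2
    linarith
  have hac' : AC nu (push (rsub p) mu) := hac
  set nl := lift (rsub p) mu nu with hnl
  have hlaw : IsLaw nl := isLaw_lift hmu.1 hnu hac'
  have hpush : msub p nl = nu := push_lift hac'
  have hKL : KL nl mu = KL nu (msub p mu) := KL_lift hac'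
  have hle' : ∀ x, nl x ≤ K * mu x := lift_le hmu.1 hK hle
  have h2 := h nl hlaw hle'
  rw [hKL] at h2
  have hacl : AC nl mu := AC_lift
  have h3 : ∑ R : Finset ι, bw (ext0 p t') R * KL (push (rst R) nl) (push (rst R) mu) ≤
      ∑ R : Finset ι, bw t R * KL (push (rst R) nl) (push (rst R) mu) :=
    bw_mono (ext0_nonneg p h0') (ext0_le p ht h0) h1 fun R R' hR =>
      KL_rst_mono hlaw.1 hmu.1 hacl hR
  have h4 : ∑ R' : Finset {i // p i}, bw t' R' *
      KL (push (rst R') nu) (push (rst R') (msub p mu)) ≤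
      ∑ R : Finset ι, bw (ext0 p t') R * KL (push (rst R) nl) (push (rst R) mu) := by
    rw [← sum_bw_ext0 p t' fun R' => KL (push (rst R') nu) (push (rst R') (msub p mu))]
    refine Finset.sum_le_sum fun R _ => mul_le_mul_of_nonneg_left ?_
      (bw_nonneg (ext0_nonneg p h0') (fun i => (ext0_le p ht h0 i).trans (h1 i)) R)
    have h5 := KL_sub_le p hlaw.1 hmu.1 hacl R
    rwa [hpush] at h5
  linarith

theorem mass_sub {mu : (∀ i, V i) → ℝ} (i : {i // p i}) (a : V i) :
    ∑ y ∈ ev (V := fun i : {i // p i} => V i) i a, msub p mu y =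
      ∑ x ∈ ev (i : ι) a, mu x := by
  rw [sum_ev, sum_ev]
  have h1 : ∀ y : ∀ i : {i // p i}, V i, (if y i = a then msub p mu y else 0) =
      push (rsub p) mu y * (if y i = a then 1 else 0) := fun y => by
    split_ifs <;> simp [msub]
  rw [Finset.sum_congr rfl fun y _ => h1 y, sum_push]
  exact Finset.sum_congr rfl fun x _ => by
    unfold rsub
    split_ifs <;> simp

/-- conditioning on one coordinate commutes with the marginal law -/
theorem res_sub {mu : (∀ i, V i) → ℝ} (i : {i // p i}) (a : V i) :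
    res (ev (V := fun i : {i // p i} => V i) i a) (msub p mu) =
      msub p (res (ev (i : ι) a) mu) := by
  funext y
  unfold res
  rw [mass_sub]
  have h1 : ∀ x : ∀ i, V i, rsub p x = y → (x ∈ ev (i : ι) a ↔ y i = a) := by
    intro x hx
    rw [← hx]
    simp [ev, rsub]
  have h2 : (y ∈ ev (V := fun i : {i // p i} => V i) i a) ↔ y i = a := by simp [ev]
  unfold msub push
  by_cases hy : y i = a
  · rw [if_pos (h2.2 hy), Finset.sum_div]
    refine Finset.sum_congr rfl fun x hx => ?_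
    exact (if_pos ((h1 x (Finset.mem_filter.1 hx).2).2 hy)).symm
  · rw [if_neg fun h => hy (h2.1 h)]
    symm
    refine Finset.sum_eq_zero fun x hx => ?_
    exact if_neg fun h => hy ((h1 x (Finset.mem_filter.1 hx).2).1 h)

theorem res_nonneg' {X : Type*} [Fintype X] [DecidableEq X] {E : Finset X} {mu : X → ℝ}
    (hmu : ∀ x, 0 ≤ mu x) (x : X) : 0 ≤ res E mu x := by
  unfold res
  split_ifs
  · exact div_nonneg (hmu x) (Finset.sum_nonneg fun y _ => hmu y)
  · exact le_rfl

/-- (4) **the entropies of testing of the marginal law** -/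
theorem Iia_sub {mu : (∀ i, V i) → ℝ} (hmu : ∀ x, 0 ≤ mu x) (t' : {i // p i} → ℝ)
    (i : {i // p i}) (a : V i) :
    Iia (V := fun i : {i // p i} => V i) t' (msub p mu) i a = Iia (ext0 p t') mu i a := by
  unfold Iia
  rw [← sum_bw_ext0 p t' fun R' => KL (push (rst R') (res (ev i a) (msub p mu)))
    (push (rst R') (msub p mu))]
  refine Finset.sum_congr rfl fun R _ => ?_
  by_cases hR : ∀ i ∈ R, p i
  · rw [res_sub, KL_sub_eq p (fun x => res_nonneg' hmu x) hmu (AC_res _ _) hR]
  · rw [bw_ext0_eq_zero p t' hR, zero_mul, zero_mul]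

theorem Ref_sub {lam : ∀ i, V i → ℝ} {L : ℝ} (h : H742.Ref lam L) :
    H742.Ref (V := fun i : {i // p i} => V i) (lsub p lam) L :=
  ⟨fun i a => h.nonneg i a, fun i => h.sum_one i, fun i a => h.atoms i a⟩

theorem marg_sub {mu : (∀ i, V i) → ℝ} (A : Finset {i // p i}) (x : ∀ i, V i) :
    marg (msub p mu) A (rsub p x) = marg mu (A.map (Function.Embedding.subtype p)) x := by
  unfold marg
  have h1 : ∀ y : ∀ i : {i // p i}, V i,
      (if (∀ i ∈ A, y i = rsub p x i) then msub p mu y else 0) =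
      push (rsub p) mu y * (if (∀ i ∈ A, y i = rsub p x i) then 1 else 0) := fun y => by
    split_ifs <;> simp [msub]
  rw [Finset.sum_congr rfl fun y _ => h1 y, sum_push]
  refine Finset.sum_congr rfl fun y _ => ?_
  have h2 : (∀ i ∈ A, rsub p y i = rsub p x i) ↔
      ∀ i ∈ A.map (Function.Embedding.subtype p), y i = x i := by
    constructor
    · intro h i hi
      obtain ⟨j, hj, rfl⟩ := Finset.mem_map.1 hi
      exact h j hj
    · intro h i hi
      exact h _ (Finset.mem_map_of_mem _ hi)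
  by_cases h3 : ∀ i ∈ A, rsub p y i = rsub p x i
  · rw [if_pos h3, if_pos (h2.1 h3), mul_one]
  · rw [if_neg h3, if_neg fun h => h3 (h2.2 h), mul_zero]

theorem I1M_sub {lam : ∀ i, V i → ℝ} {M : ι → ℝ} {D0 : ℕ} {mu : (∀ i, V i) → ℝ}
    (h : H678.I1M lam M D0 mu) (hmu : IsLaw mu) :
    H678.I1M (V := fun i : {i // p i} => V i) (lsub p lam) (fun i => M i) D0 (msub p mu) := by
  obtain ⟨x0⟩ : Nonempty (∀ i, V i) := by
    by_contra hc
    rw [not_nonempty_iff] at hc
    have h1 := hmu.2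
    simp at h1
  intro A hA y
  have hy : y = rsub p fun i => if h : p i then y ⟨i, h⟩ else x0 i := by
    funext i
    simp [rsub, i.2]
  rw [hy, marg_sub]
  refine (h _ (by rw [Finset.card_map]; exact hA) _).trans (le_of_eq ?_)
  unfold lw
  rw [Finset.prod_map, Finset.prod_map]
  rfl

/-- (5) **block [B] for the marginal law** -/
theorem bhyp_sub {lam : ∀ i, V i → ℝ} {mu : (∀ i, V i) → ℝ} {t M : ι → ℝ}
    {t' : {i // p i} → ℝ} {L Λ ε e1 : ℝ} {D0 : ℕ} (hmu : IsLaw mu) (hR : H742.Ref lam L)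
    (hI : H678.I1M lam M D0 mu) (hM : ∀ i, 1 ≤ M i) (ht0' : ∀ i, 0 < t' i)
    (ht' : ∀ i, t' i ≤ t i) (ht0 : ∀ i, 0 ≤ t i) (ht1 : ∀ i, t i ≤ 1)
    (hL : 0 ≤ L) (hD : 1 ≤ D0)
    (hΛ : D0 * (L + Real.log (Fintype.card {i // p i} * D0)) + 3 ≤ Λ)
    (hmei : MEIK t ε e1 (Real.exp (6 * Λ)) mu) (hε : 0 ≤ ε) (he1 : 0 ≤ e1)
    (hs : 704 * ε * Λ ≤ 1) (hsm : D0 * (e1 + 6 * Λ * Real.exp (-(3 * Λ))) ≤ ε * Λ) :
    BHyp (V := fun i : {i // p i} => V i) (lsub p lam) (msub p mu) t' (fun i => M i) L Λ ε Λ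
      (Real.exp (-(3 * Λ))) D0 :=
  bhyp_of_meik (msub_isLaw hmu) (Ref_sub p hR) (I1M_sub p hI hmu) (fun i => hM i) ht0'
    (fun i => (ht' i).trans (ht1 i)) hL hD hΛ
    (MEIK_sub p hmei hmu (fun i => (ht0' i).le) ht' ht0 ht1) hε he1 hs hsm

end laws

/-! ### totals -/

section tot

variable {ι : Type*} [Fintype ι] [DecidableEq ι] {V : ι → Type*} [∀ i, Fintype (V i)]
  [∀ i, DecidableEq (V i)]

/-- (4') **the totals of the roots at the top scale of a marginal law** (`p i ↔ sc i ≤ s`) -/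
theorem tot_sub (p : ι → Prop) [DecidablePred p] {mu : (∀ i, V i) → ℝ} (h : IsLaw mu)
    {sc : ι → ℕ} {s : ℕ} (hp : ∀ i, p i ↔ sc i ≤ s)
    {t' : {i // p i} → ℝ} (h0 : ∀ i, 0 ≤ t' i) (h1 : ∀ i, t' i ≤ 1)
    {ok' : Finset ι → Prop} [DecidablePred ok'] {lam a : ℝ} {c : ι → ℝ} (hl : 0 < lam)
    (ha : 0 ≤ a) (hc : ∀ i, 0 ≤ c i)
    (hP : ∀ P ⊆ Lo sc (s + 1), ok' P →
      lam * ∑ j ∈ At sc s \ P, H48.MI mu j P ≤ ∑ i ∈ P, c i + a)
    {bad : ℝ} (hbad : ∑ R, bw (ext0 p t') R * (if ok' R then 0 else 1) ≤ bad)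
    {H : ℝ} (hH0 : 0 ≤ H) (hH : ∀ i ∈ At sc s, -H48.ne mu {i} ≤ H) :
    ∑ i ∈ univ.filter (fun i : {i // p i} => sc i = s), ∑ a : V i, m1 (msub p mu) i a *
          Iia (V := fun i : {i // p i} => V i) t' (msub p mu) i a ≤
      (∑ i, t' i * c i + a) / lam + bad * ((At sc s).card * H) +
        H * ∑ i ∈ univ.filter (fun i : {i // p i} => sc i = s), t' i := by
  have h2 := H48.totals_top (t := ext0 p t') h (ext0_nonneg p h0)
    (fun i => ext0_le (t := fun _ => 1) p h1 (fun _ => zero_le_one) i) (sc := sc) (s := s)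
    (fun i hi => by
      unfold ext0
      rw [dif_neg]
      rw [hp]
      exact not_le.2 hi) hl ha hc hP hbad hH0 hH
  have hA : (At sc s).subtype p = univ.filter fun i : {i // p i} => sc i = s := by
    ext i
    simp [H779.Ab.At]
  have hB : (Lo sc (s + 1)).subtype p = univ := by
    ext i
    have := (hp i).1 i.2
    simp only [Finset.mem_subtype, H779.Ab.Lo, Finset.mem_filter, Finset.mem_univ, true_and,
      iff_true]
    omega
  have h3 : ∑ i ∈ At sc s, ∑ a, m1 mu i a * Iia (ext0 p t') mu i a =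
      ∑ i ∈ univ.filter (fun i : {i // p i} => sc i = s), ∑ a : V i, m1 (msub p mu) i a *
        Iia (V := fun i : {i // p i} => V i) t' (msub p mu) i a := by
    have h4 : ∀ i : {i // p i}, ∑ a : V i, m1 (msub p mu) i a *
        Iia (V := fun i : {i // p i} => V i) t' (msub p mu) i a =
        (fun j => ∑ a, m1 mu j a * Iia (ext0 p t') mu j a) (i : ι) := fun i =>
      Finset.sum_congr rfl fun a _ => by rw [m1_sub, Iia_sub p h.1]
    rw [Finset.sum_congr rfl fun i _ => h4 i, ← hA,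
      Finset.sum_subtype_eq_sum_filter (fun j => ∑ a, m1 mu j a * Iia (ext0 p t') mu j a),
      Finset.filter_true_of_mem]
    intro i hi
    rw [H779.Ab.At, Finset.mem_filter] at hi
    rw [hp]
    exact hi.2.le
  rw [h3, sum_ext0, hB] at h2
  have h5 : ∑ i ∈ At sc s, ext0 p t' i =
      ∑ i ∈ univ.filter (fun i : {i // p i} => sc i = s), t' i := by
    have h6 := sum_ext0 p t' (At sc s) fun _ => 1
    simp only [mul_one] at h6
    rw [h6, hA]
  rw [h5] at h2
  exact h2

end tot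

end Vale.Agent.P042.H858
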