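import Vale.Agent.P042.H858.PushZ
import Vale.Agent.P042.H742.MeiSt
import Vale.Agent.P042.H945.State10
import Vale.Agent.P042.H104.Gibbs
import Vale.Agent.P042.H482.Pins

/-!
# P042, push-forward side of the state: the entropy inequality with pins on the product space

`MFe`: the inequality (MF) of the state at one window `[u, v]`, without the families.
`ei_core`: its image on `∏ V i` for a cell of `mu`, with pins and a general density.
-/

set_option autoImplicit false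
set_option linter.unusedSectionVars false

namespace Vale.Agent.P042.H858

open Finset Vale.Agent.P042.H461
open Vale.Agent.P042.H599 (cm Law)
open Vale.Agent.P042.H945 (SM kl2 klc ms cl)
open Vale.Agent.P042.H779 (marg m1 phi)
open Vale.Agent.P042.H779.Ab (ce gdw Di Ref)
open Vale.Agent.P042.H482 (mi)

/-- (MF) at one window (no families), arbitrary cost `cst D`, two ranges: every cell `n % D = w`,
`D ≤ DM`, of the window with density at least `exp (-Dt)`, every competitor with density at most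
`exp Dm` -/
def MFt (mu : ℕ → ℝ) (N : ℕ) (W : Finset ℕ) (c : ℕ → ℝ) (cst : ℕ → ℝ) (DM Dt Dm Vv : ℝ)
    (u v : ℕ) : Prop :=
  ∀ (D w : ℕ) (y : ℕ → ℝ), 1 ≤ D → (D : ℝ) ≤ DM → w < D → 0 < ms mu N (cl D w u v) →
    Real.exp (-Dt) * Vv ≤ D * ms mu N (cl D w u v) * N → Law y 1 N → (∀ n, 0 ≤ y n) →
    (∀ n, y n ≤ Real.exp Dm * H945.rst mu N (cl D w u v) n) →
    Real.log (D * ms mu N (cl D w u v) * N / Vv) + ∑ p ∈ W with ¬ p ∣ D, c p * klc y mu N p ≤
      kl2 y (H945.rst mu N (cl D w u v)) N + cst D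

/-- (MF) at one window (no families), arbitrary cost `cst D`: every cell `n % D = w`, `D ≤ DM`, of
the window with density at least `exp (-Dm)`, every competitor with density at most `exp Dm` -/
def MFe (mu : ℕ → ℝ) (N : ℕ) (W : Finset ℕ) (c : ℕ → ℝ) (cst : ℕ → ℝ) (DM Dm Vv : ℝ)
    (u v : ℕ) : Prop :=
  ∀ (D w : ℕ) (y : ℕ → ℝ), 1 ≤ D → (D : ℝ) ≤ DM → w < D → 0 < ms mu N (cl D w u v) →
    Real.exp (-Dm) * Vv ≤ D * ms mu N (cl D w u v) * N → Law y 1 N → (∀ n, 0 ≤ y n) →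
    (∀ n, y n ≤ Real.exp Dm * H945.rst mu N (cl D w u v) n) →
    Real.log (D * ms mu N (cl D w u v) * N / Vv) + ∑ p ∈ W with ¬ p ∣ D, c p * klc y mu N p ≤
      kl2 y (H945.rst mu N (cl D w u v)) N + cst D

section

variable {ι : Type*} [Fintype ι] [DecidableEq ι] {V : ι → Type*} [∀ i, Fintype (V i)]
  [∀ i, DecidableEq (V i)]

theorem m1_eq_push (P : (∀ i, V i) → ℝ) (i : ι) (b : V i) :
    m1 P i b = push (fun x : ∀ i, V i => x i) P b := by
  unfold m1 push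
  rw [Finset.sum_filter]

/-- integration against the image law -/
theorem sum_pf (r : ∀ i, ℕ → V i) (nu : ℕ → ℝ) (N : ℕ) (G : (∀ i, V i) → ℝ) :
    ∑ x, pf r nu 1 N x * G x = SM N (fun n => nu n * G (fun i => r i n)) := by
  rw [pf, sum_push]
  unfold SM
  rw [Finset.sum_range]
  rfl

/-- relative entropy of one coordinate -/
theorem klr_coord {q : ι → ℕ} (hq : ∀ i, 0 < q i)
    {r : ∀ i, ℕ → V i} (hr : ∀ i n m, r i n = r i m ↔ n ≡ m [MOD q i]) (nu mu : ℕ → ℝ) (N : ℕ)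
    (i : ι) :
    klr nu mu 1 N (q i) = KL (m1 (pf r nu 1 N) i) (m1 (pf r mu 1 N) i) := by
  have h1 : ∀ P : ℕ → ℝ, m1 (pf r P 1 N) i =
      push (fun j : Fin N => r i (1 + j)) (iv P 1 N) := by
    intro P
    funext b
    rw [m1_eq_push, pf, push_push]
    rfl
  rw [h1, h1, klr_eq nu mu 1 N (hq i)]
  refine KL_push_congr _ _ (fun a b => ?_) _ _
  rw [hr]
  unfold rsd
  rw [Fin.ext_iff]
  rfl

theorem sum_phi_eq_KL {X : Type*} [Fintype X] {a w : X → ℝ}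
    (hs : ∑ x, a x = 1) (hw : ∑ x, w x = 1) (hac : ∀ x, w x = 0 → a x = 0) :
    ∑ x, w x * phi (a x / w x) = KL a w := by
  have h1 : ∀ x, w x * phi (a x / w x) = a x * Real.log (a x / w x) - a x + w x := by
    intro x
    unfold phi
    by_cases h : w x = 0
    · rw [h, hac x h]; simp
    · field_simp
  rw [Finset.sum_congr rfl fun x _ => h1 x, Finset.sum_add_distrib, Finset.sum_sub_distrib, hs,
    hw]
  unfold KL
  ring

/-! ### cells -/

/-- a pinned cell is a cell -/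
theorem cell_iff {q : ι → ℕ} (hc : Pairwise fun i j => (q i).Coprime (q j))
    {r : ∀ i, ℕ → V i} (hr : ∀ i n m, r i n = r i m ↔ n ≡ m [MOD q i]) {D0 w0 u v : ℕ}
    (hcD : ∀ i, (q i).Coprime D0) (Q : Finset ι) {n0 : ℕ} (h0 : cl D0 w0 u v n0) (n : ℕ) :
    cl (D0 * ∏ i ∈ Q, q i) (n0 % (D0 * ∏ i ∈ Q, q i)) u v n ↔
      cl D0 w0 u v n ∧ ∀ i ∈ Q, r i n = r i n0 := by
  have hcop : Nat.Coprime D0 (∏ i ∈ Q, q i) :=
    Nat.Coprime.prod_right fun i _ => (hcD i).symm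
  have h1 : n % (D0 * ∏ i ∈ Q, q i) = n0 % (D0 * ∏ i ∈ Q, q i) ↔
      n % D0 = w0 ∧ ∀ i ∈ Q, r i n = r i n0 := by
    have h2 : n ≡ n0 [MOD D0 * ∏ i ∈ Q, q i] ↔
        n ≡ n0 [MOD D0] ∧ n ≡ n0 [MOD ∏ i ∈ Q, q i] :=
      (Nat.modEq_and_modEq_iff_modEq_mul hcop).symm
    have h3 : n % (∏ i ∈ Q, q i) = n0 % (∏ i ∈ Q, q i) ↔ ∀ i ∈ Q, n ≡ n0 [MOD q i] :=
      prod_modEq hc Q n n0
    have h4 : n0 % D0 = w0 := h0.2.2
    constructor
    · intro h
      obtain ⟨h5, h6⟩ := h2.1 h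
      refine ⟨by rw [← h4]; exact h5, fun i hi => (hr i n n0).2 (h3.1 h6 i hi)⟩
    · rintro ⟨h5, h6⟩
      refine h2.2 ⟨?_, h3.2 fun i hi => (hr i n n0).1 (h6 i hi)⟩
      show n % D0 = n0 % D0
      rw [h5, h4]
  unfold cl
  rw [h1]
  tauto

section cell

variable {q : ι → ℕ} {r : ∀ i, ℕ → V i} {mu : ℕ → ℝ} {N D0 w0 u v : ℕ}

open Classical in
/-- the law of the cell with pins, at the integers -/
theorem pin_point (hc : Pairwise fun i j => (q i).Coprime (q j))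
    (hr : ∀ i n m, r i n = r i m ↔ n ≡ m [MOD q i]) (hcD : ∀ i, (q i).Coprime D0)
    {Q : Finset ι} {x : ∀ i, V i} {n0 : ℕ} (h0 : cl D0 w0 u v n0)
    (hx : ∀ i ∈ Q, r i n0 = x i) (n : ℕ) :
    (if (∀ i ∈ Q, r i n = x i) then H945.rst mu N (cl D0 w0 u v) n else 0) =
      (if cl (D0 * ∏ i ∈ Q, q i) (n0 % (D0 * ∏ i ∈ Q, q i)) u v n then mu n else 0) /
        ms mu N (cl D0 w0 u v) := by
  have h1 : (∀ i ∈ Q, r i n = x i) ↔ ∀ i ∈ Q, r i n = r i n0 :=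
    ⟨fun h i hi => by rw [h i hi, hx i hi], fun h i hi => by rw [h i hi, hx i hi]⟩
  have h2 := cell_iff hc hr hcD Q h0 n
  by_cases hp : ∀ i ∈ Q, r i n = x i
  · by_cases hS : cl D0 w0 u v n
    · rw [if_pos hp, if_pos (h2.2 ⟨hS, h1.1 hp⟩), H945.rst_val hS]
    · rw [if_pos hp, if_neg fun h => hS (h2.1 h).1, H945.rst_val0 hS, zero_div]
  · rw [if_neg hp, if_neg fun h => hp (h1.2 (h2.1 h).2), zero_div]

/-- sums over the pinned points -/
theorem sum_pin (hc : Pairwise fun i j => (q i).Coprime (q j))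
    (hr : ∀ i n m, r i n = r i m ↔ n ≡ m [MOD q i]) (hcD : ∀ i, (q i).Coprime D0)
    {Q : Finset ι} {x : ∀ i, V i} {n0 : ℕ} (h0 : cl D0 w0 u v n0)
    (hx : ∀ i ∈ Q, r i n0 = x i)
    (hm : 0 < ms mu N (cl (D0 * ∏ i ∈ Q, q i) (n0 % (D0 * ∏ i ∈ Q, q i)) u v))
    (G : (∀ i, V i) → ℝ) :
    (∑ y, if (∀ i ∈ Q, y i = x i) then pf r (H945.rst mu N (cl D0 w0 u v)) 1 N y * G y else 0) =
      ms mu N (cl (D0 * ∏ i ∈ Q, q i) (n0 % (D0 * ∏ i ∈ Q, q i)) u v) /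
        ms mu N (cl D0 w0 u v) *
      SM N (fun n => H945.rst mu N (cl (D0 * ∏ i ∈ Q, q i)
        (n0 % (D0 * ∏ i ∈ Q, q i)) u v) n * G (fun i => r i n)) := by
  classical
  have h1 : ∀ y : ∀ i, V i,
      (if (∀ i ∈ Q, y i = x i) then pf r (H945.rst mu N (cl D0 w0 u v)) 1 N y * G y else 0) =
      pf r (H945.rst mu N (cl D0 w0 u v)) 1 N y *
        (if (∀ i ∈ Q, y i = x i) then G y else 0) := fun y => by
    split_ifs <;> simp
  rw [Finset.sum_congr rfl fun y _ => h1 y, sum_pf, ← H945.SM_mul]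
  refine H945.SM_congr fun i _ => ?_
  have h2 := pin_point (mu := mu) (N := N) hc hr hcD h0 hx (1 + i)
  have h3 : H945.rst mu N (cl (D0 * ∏ i ∈ Q, q i) (n0 % (D0 * ∏ i ∈ Q, q i)) u v) (1 + i) =
      (if cl (D0 * ∏ i ∈ Q, q i) (n0 % (D0 * ∏ i ∈ Q, q i)) u v (1 + i) then mu (1 + i)
        else 0) / ms mu N (cl (D0 * ∏ i ∈ Q, q i) (n0 % (D0 * ∏ i ∈ Q, q i)) u v) := by
    by_cases h4 : cl (D0 * ∏ i ∈ Q, q i) (n0 % (D0 * ∏ i ∈ Q, q i)) u v (1 + i)
    · rw [if_pos h4, H945.rst_val h4]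
    · rw [if_neg h4, H945.rst_val0 h4, zero_div]
  rw [h3]
  have h5 : H945.rst mu N (cl D0 w0 u v) (1 + i) *
      (if (∀ j ∈ Q, r j (1 + i) = x j) then G (fun j => r j (1 + i)) else 0) =
      (if (∀ j ∈ Q, r j (1 + i) = x j) then H945.rst mu N (cl D0 w0 u v) (1 + i) else 0) *
        G (fun j => r j (1 + i)) := by
    split_ifs <;> simp
  rw [h5, h2]
  field_simp

theorem exists_point (hc : Pairwise fun i j => (q i).Coprime (q j))
    (hr : ∀ i n m, r i n = r i m ↔ n ≡ m [MOD q i]) (hcD : ∀ i, (q i).Coprime D0)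
    (Q : Finset ι) {x : ∀ i, V i}
    (hx : 0 < marg (pf r (H945.rst mu N (cl D0 w0 u v)) 1 N) Q x) :
    ∃ n0, cl D0 w0 u v n0 ∧ (∀ i ∈ Q, r i n0 = x i) ∧
      marg (pf r (H945.rst mu N (cl D0 w0 u v)) 1 N) Q x =
        ms mu N (cl (D0 * ∏ i ∈ Q, q i) (n0 % (D0 * ∏ i ∈ Q, q i)) u v) /
          ms mu N (cl D0 w0 u v) := by
  classical
  have h1 : marg (pf r (H945.rst mu N (cl D0 w0 u v)) 1 N) Q x =
      SM N (fun n => if (∀ i ∈ Q, r i n = x i) then H945.rst mu N (cl D0 w0 u v) n else 0) := by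
    unfold marg
    have h2 : ∀ y : ∀ i, V i,
        (if (∀ i ∈ Q, y i = x i) then pf r (H945.rst mu N (cl D0 w0 u v)) 1 N y else 0) =
        pf r (H945.rst mu N (cl D0 w0 u v)) 1 N y *
          (if (∀ i ∈ Q, y i = x i) then 1 else 0) := fun y => by
      split_ifs <;> simp
    rw [Finset.sum_congr rfl fun y _ => h2 y, sum_pf]
    exact H945.SM_congr fun i _ => by split_ifs <;> simp
  have h3 : ∃ i ∈ range N, (if (∀ j ∈ Q, r j (1 + i) = x j) then
      H945.rst mu N (cl D0 w0 u v) (1 + i) else 0) ≠ 0 := by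
    by_contra hcon
    rw [h1] at hx
    unfold SM at hx
    rw [Finset.sum_eq_zero fun i hi => by
      by_contra h4
      exact hcon ⟨i, hi, h4⟩] at hx
    exact lt_irrefl _ hx
  obtain ⟨i, _, hi⟩ := h3
  by_cases hp : ∀ j ∈ Q, r j (1 + i) = x j
  · rw [if_pos hp] at hi
    have h4 := (H945.rst_ne hi).1
    refine ⟨1 + i, h4, hp, ?_⟩
    rw [h1]
    refine (H945.SM_congr (g := fun n =>
      (if cl (D0 * ∏ i ∈ Q, q i) ((1 + i) % (D0 * ∏ i ∈ Q, q i)) u v n then mu n else 0) /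
        ms mu N (cl D0 w0 u v)) fun k _ => pin_point hc hr hcD h4 hp (1 + k)).trans ?_
    unfold SM
    rw [← Finset.sum_div]
    rfl
  · rw [if_neg hp] at hi
    exact absurd rfl hi

/-- conditional expectations are integer sums over the pinned cell -/
theorem ce_pin (hc : Pairwise fun i j => (q i).Coprime (q j))
    (hr : ∀ i n m, r i n = r i m ↔ n ≡ m [MOD q i]) (hcD : ∀ i, (q i).Coprime D0)
    (hm0 : 0 < ms mu N (cl D0 w0 u v)) {Q : Finset ι} {x : ∀ i, V i} {n0 : ℕ}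
    (h0 : cl D0 w0 u v n0) (hx : ∀ i ∈ Q, r i n0 = x i)
    (hm : 0 < ms mu N (cl (D0 * ∏ i ∈ Q, q i) (n0 % (D0 * ∏ i ∈ Q, q i)) u v))
    (hmg : marg (pf r (H945.rst mu N (cl D0 w0 u v)) 1 N) Q x =
        ms mu N (cl (D0 * ∏ i ∈ Q, q i) (n0 % (D0 * ∏ i ∈ Q, q i)) u v) /
          ms mu N (cl D0 w0 u v)) (G : (∀ i, V i) → ℝ) :
    ce (pf r (H945.rst mu N (cl D0 w0 u v)) 1 N) Q G x =
      SM N (fun n => H945.rst mu N (cl (D0 * ∏ i ∈ Q, q i)
        (n0 % (D0 * ∏ i ∈ Q, q i)) u v) n * G (fun i => r i n)) := by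
  unfold ce
  rw [sum_pin hc hr hcD h0 hx hm G, hmg]
  field_simp

theorem lt_two_coprime {a b : ℕ} (ha : 2 ≤ a) (h : a.Coprime b) : ¬ a ∣ b := by
  intro hd
  have := Nat.Coprime.eq_one_of_dvd h hd
  omega

/-- the hypotheses on the coordinates, the state and the cell (two ranges, `MFt`) -/
structure CellT (q : ι → ℕ) (r : ∀ i, ℕ → V i) (mu : ℕ → ℝ) (N : ℕ) (W : Finset ℕ)
    (c cst : ℕ → ℝ) (DM Dt Dm Vv : ℝ) (D0 w0 u v : ℕ) (lam : ι → ℝ) : Prop where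
  MF : MFt mu N W c cst DM Dt Dm Vv u v
  law : Law mu 1 N
  nn : ∀ n, 0 ≤ mu n
  q2 : ∀ i, 2 ≤ q i
  pc : Pairwise fun i j => (q i).Coprime (q j)
  Wpos : ∀ p ∈ W, 0 < p
  c0 : ∀ p ∈ W, 0 ≤ c p
  lam0 : ∀ i, 0 ≤ lam i
  lamc : ∀ i, lam i = 0 ∨ (q i ∈ W ∧ lam i ≤ c (q i))
  res : ∀ i n m, r i n = r i m ↔ n ≡ m [MOD q i]
  cop : ∀ i, (q i).Coprime D0
  D1 : 1 ≤ D0
  m0 : 0 < ms mu N (cl D0 w0 u v)
  Vpos : 0 < Vv

/-- the hypotheses on the coordinates, the state and the cell -/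
structure CellHyp (q : ι → ℕ) (r : ∀ i, ℕ → V i) (mu : ℕ → ℝ) (N : ℕ) (W : Finset ℕ)
    (c cst : ℕ → ℝ) (DM Dm Vv : ℝ) (D0 w0 u v : ℕ) (lam : ι → ℝ) : Prop where
  MF : MFe mu N W c cst DM Dm Vv u v
  law : Law mu 1 N
  nn : ∀ n, 0 ≤ mu n
  q2 : ∀ i, 2 ≤ q i
  pc : Pairwise fun i j => (q i).Coprime (q j)
  Wpos : ∀ p ∈ W, 0 < p
  c0 : ∀ p ∈ W, 0 ≤ c p
  lam0 : ∀ i, 0 ≤ lam i
  lamc : ∀ i, lam i = 0 ∨ (q i ∈ W ∧ lam i ≤ c (q i))
  res : ∀ i n m, r i n = r i m ↔ n ≡ m [MOD q i]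
  cop : ∀ i, (q i).Coprime D0
  D1 : 1 ≤ D0
  m0 : 0 < ms mu N (cl D0 w0 u v)
  Vpos : 0 < Vv

variable {W : Finset ℕ} {c cst : ℕ → ℝ} {DM Dt Dm Vv : ℝ} {lam : ι → ℝ}

theorem CellHyp.toT (H : CellHyp q r mu N W c cst DM Dm Vv D0 w0 u v lam) :
    CellT q r mu N W c cst DM Dm Dm Vv D0 w0 u v lam :=
  ⟨H.MF, H.law, H.nn, H.q2, H.pc, H.Wpos, H.c0, H.lam0, H.lamc, H.res, H.cop, H.D1, H.m0, H.Vpos⟩

/-- **THE ENTROPY INEQUALITY WITH PINS ON THE PRODUCT SPACE** (exact form) -/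
theorem ei_coreT (H : CellT q r mu N W c cst DM Dt Dm Vv D0 w0 u v lam) (Q : Finset ι)
    (hQ : (D0 : ℝ) * ∏ i ∈ Q, (q i : ℝ) ≤ DM) (x : ∀ i, V i)
    (hx : 0 < marg (pf r (H945.rst mu N (cl D0 w0 u v)) 1 N) Q x)
    (hthick : Real.exp (-Dt) * Vv ≤ D0 * (∏ i ∈ Q, (q i : ℝ)) *
      (ms mu N (cl D0 w0 u v) * marg (pf r (H945.rst mu N (cl D0 w0 u v)) 1 N) Q x) * N)
    (f : (∀ i, V i) → ℝ) (hf : ∀ y, 0 ≤ f y) (hf' : ∀ y, f y ≤ Real.exp Dm)
    (hce : ce (pf r (H945.rst mu N (cl D0 w0 u v)) 1 N) Q f x = 1) :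
    Real.log (D0 * (∏ i ∈ Q, (q i : ℝ)) *
      (ms mu N (cl D0 w0 u v) * marg (pf r (H945.rst mu N (cl D0 w0 u v)) 1 N) Q x) * N / Vv) +
      ∑ i ∈ univ \ Q, lam i * ∑ b, m1 (pf r mu 1 N) i b *
        phi (mi (pf r (H945.rst mu N (cl D0 w0 u v)) 1 N) Q f i x b / m1 (pf r mu 1 N) i b) ≤
    ce (pf r (H945.rst mu N (cl D0 w0 u v)) 1 N) Q (fun y => f y * Real.log (f y)) x +
      cst (D0 * ∏ i ∈ Q, q i) := by
  have hmu := H.law
  have hqpos : ∀ i, 0 < q i := fun i => lt_of_lt_of_le (by norm_num) (H.q2 i)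
  have hinj : Function.Injective q := fun i j hij => by
    by_contra hne
    have h1 : (q i).Coprime (q j) := H.pc hne
    rw [← hij, Nat.coprime_self] at h1
    have := H.q2 i
    omega
  obtain ⟨n0, h0, hpin, hmg⟩ := exists_point H.pc H.res H.cop Q hx
  set D' : ℕ := D0 * ∏ i ∈ Q, q i with hD'
  set S' := cl D' (n0 % D') u v with hS'
  set nu := H945.rst mu N S' with hnu
  have hm' : 0 < ms mu N S' := by
    rw [hmg] at hx
    rcases (H945.ms_nonneg hmu S').eq_or_lt with h | h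
    · rw [← h, zero_div] at hx
      exact absurd hx (lt_irrefl _)
    · exact h
  have hms : ms mu N (cl D0 w0 u v) *
      marg (pf r (H945.rst mu N (cl D0 w0 u v)) 1 N) Q x = ms mu N S' := by
    rw [hmg]
    have := H.m0.ne'
    field_simp
  have hDpos : 1 ≤ D' := Nat.one_le_iff_ne_zero.2
    (Nat.mul_ne_zero (by have := H.D1; omega)
      (Finset.prod_ne_zero_iff.2 fun i _ => (hqpos i).ne'))
  have hDc : (D' : ℝ) = D0 * ∏ i ∈ Q, (q i : ℝ) := by
    rw [hD']; push_cast; rfl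
  rw [hms, ← hDc] at hthick ⊢
  have hceG := ce_pin (mu := mu) (N := N) H.pc H.res H.cop H.m0 h0 hpin hm' hmg
  set y : ℕ → ℝ := fun n => nu n * f (fun i => r i n) with hy
  have hnulaw : Law nu 1 N := H945.rst_law hmu hm'
  have hnu0 : ∀ n, 0 ≤ nu n := fun n => by
    by_cases h : S' n
    · rw [hnu, H945.rst_val h]
      exact div_nonneg (H.nn n) hm'.le
    · rw [hnu, H945.rst_val0 h]
  have hylaw : Law y 1 N := by
    refine ⟨hmu.pos, fun i hi => mul_nonneg (hnu0 _) (hf _), ?_⟩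
    have h1 := hceG f
    rw [hce] at h1
    exact h1.symm
  have hy0 : ∀ n, 0 ≤ y n := fun n => mul_nonneg (hnu0 n) (hf _)
  have hyle : ∀ n, y n ≤ Real.exp Dm * nu n := fun n => by
    rw [hy, mul_comm (Real.exp Dm)]
    exact mul_le_mul_of_nonneg_left (hf' _) (hnu0 n)
  have hac : H945.AC y mu N := fun i _ h => by
    have h1 : nu (1 + i) = 0 := by
      by_contra h2
      exact (H945.rst_ne h2).2 h
    show nu (1 + i) * _ = 0
    rw [h1, zero_mul]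
  have hmain := H.MF D' (n0 % D') y hDpos (by rw [hDc]; exact hQ) (Nat.mod_lt _ hDpos) hm'
    hthick hylaw hy0 hyle
  have hkl : kl2 y (H945.rst mu N (cl D' (n0 % D') u v)) N =
      ce (pf r (H945.rst mu N (cl D0 w0 u v)) 1 N) Q (fun y => f y * Real.log (f y)) x := by
    rw [hceG]
    unfold kl2
    refine H945.SM_congr fun i _ => ?_
    show nu (1 + i) * f (fun j => r j (1 + i)) *
      (Real.log (nu (1 + i) * f (fun j => r j (1 + i))) - Real.log (nu (1 + i))) =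
      nu (1 + i) * (f (fun j => r j (1 + i)) * Real.log (f (fun j => r j (1 + i))))
    by_cases h1 : nu (1 + i) = 0
    · rw [h1]; simp
    by_cases h2 : f (fun j => r j (1 + i)) = 0
    · rw [h2]; simp
    · rw [Real.log_mul h1 h2]; ring
  have hcoord : ∀ i, klc y mu N (q i) = ∑ b, m1 (pf r mu 1 N) i b *
      phi (mi (pf r (H945.rst mu N (cl D0 w0 u v)) 1 N) Q f i x b / m1 (pf r mu 1 N) i b) := by
    intro i
    rw [← H742.klr_eq_klc hmu hac, klr_coord hqpos H.res]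
    have h1 : ∀ b, mi (pf r (H945.rst mu N (cl D0 w0 u v)) 1 N) Q f i x b =
        m1 (pf r y 1 N) i b := by
      intro b
      unfold mi
      rw [hceG]
      unfold m1
      have h2 : ∀ z : ∀ i, V i, (if z i = b then pf r y 1 N z else 0) =
          pf r y 1 N z * (if z i = b then 1 else 0) := fun z => by split_ifs <;> simp
      rw [Finset.sum_congr rfl fun z _ => h2 z, sum_pf]
      refine H945.SM_congr fun k _ => ?_
      show nu (1 + k) * (if r i (1 + k) = b then f (fun j => r j (1 + k)) else 0) =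
        nu (1 + k) * f (fun j => r j (1 + k)) * (if r i (1 + k) = b then 1 else 0)
      split_ifs <;> ring
    simp only [h1]
    symm
    have hl1 : IsLaw (m1 (pf r y 1 N) i) := by
      have h3 : m1 (pf r y 1 N) i = push (fun x : ∀ i, V i => x i) (pf r y 1 N) := by
        funext b; exact m1_eq_push _ i b
      rw [h3]
      exact (isLaw_pf r hylaw).push _
    have hl2 : IsLaw (m1 (pf r mu 1 N) i) := by
      have h3 : m1 (pf r mu 1 N) i = push (fun x : ∀ i, V i => x i) (pf r mu 1 N) := by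
        funext b; exact m1_eq_push _ i b
      rw [h3]
      exact (isLaw_pf r hmu).push _
    refine sum_phi_eq_KL hl1.2 hl2.2 fun b hb => ?_
    have h4 : AC (pf r y 1 N) (pf r mu 1 N) := by
      unfold pf
      refine AC.push (fun j hj => ?_) (isLaw_iv hmu).1 _
      exact hac j j.2 hj
    have h5 := h4.push (isLaw_pf r hmu).1 (fun x : ∀ i, V i => x i)
    rw [m1_eq_push] at hb ⊢
    exact h5 b hb
  have hk0 : ∀ m, 0 < m → 0 ≤ klc y mu N m := fun m hm => H945.klc_nonneg hylaw hmu hac hm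
  have hsum : ∑ i ∈ univ \ Q, lam i * ∑ b, m1 (pf r mu 1 N) i b *
      phi (mi (pf r (H945.rst mu N (cl D0 w0 u v)) 1 N) Q f i x b / m1 (pf r mu 1 N) i b) ≤
      ∑ p ∈ W with ¬ p ∣ D', c p * klc y mu N p := by
    have h1 : ∑ i ∈ univ \ Q, lam i * ∑ b, m1 (pf r mu 1 N) i b *
        phi (mi (pf r (H945.rst mu N (cl D0 w0 u v)) 1 N) Q f i x b /
          m1 (pf r mu 1 N) i b) ≤
        ∑ p ∈ ((univ \ Q).filter fun i => lam i ≠ 0).image q, c p * klc y mu N p := by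
      rw [Finset.sum_image fun i _ j _ h => hinj h, Finset.sum_filter]
      refine Finset.sum_le_sum fun i _ => ?_
      rw [← hcoord i]
      by_cases h2 : lam i = 0
      · rw [if_neg (by simp [h2]), h2, zero_mul]
      · rw [if_pos h2]
        rcases H.lamc i with h3 | h3
        · exact absurd h3 h2
        · exact mul_le_mul_of_nonneg_right h3.2 (hk0 _ (hqpos i))
    refine h1.trans (Finset.sum_le_sum_of_subset_of_nonneg ?_ ?_)
    · intro p hp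
      obtain ⟨i, hi, rfl⟩ := Finset.mem_image.1 hp
      obtain ⟨hi1, hi2⟩ := Finset.mem_filter.1 hi
      rcases H.lamc i with h3 | h3
      · exact absurd h3 hi2
      refine Finset.mem_filter.2 ⟨h3.1, ?_⟩
      have hiQ : i ∉ Q := (Finset.mem_sdiff.1 hi1).2
      refine lt_two_coprime (H.q2 i) ?_
      rw [hD']
      refine Nat.Coprime.mul_right (H.cop i) (Nat.Coprime.prod_right fun j hj => ?_)
      exact H.pc fun hij => hiQ (hij ▸ hj)
    · intro p hp _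
      have hpW := (Finset.mem_filter.1 hp).1
      exact mul_nonneg (H.c0 p hpW) (hk0 p (H.Wpos p hpW))
  rw [hkl] at hmain
  linarith

/-- **THE ENTROPY INEQUALITY WITH PINS ON THE PRODUCT SPACE** (exact form) -/
theorem ei_core (H : CellHyp q r mu N W c cst DM Dm Vv D0 w0 u v lam) (Q : Finset ι)
    (hQ : (D0 : ℝ) * ∏ i ∈ Q, (q i : ℝ) ≤ DM) (x : ∀ i, V i)
    (hx : 0 < marg (pf r (H945.rst mu N (cl D0 w0 u v)) 1 N) Q x)
    (hthick : Real.exp (-Dm) * Vv ≤ D0 * (∏ i ∈ Q, (q i : ℝ)) *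
      (ms mu N (cl D0 w0 u v) * marg (pf r (H945.rst mu N (cl D0 w0 u v)) 1 N) Q x) * N)
    (f : (∀ i, V i) → ℝ) (hf : ∀ y, 0 ≤ f y) (hf' : ∀ y, f y ≤ Real.exp Dm)
    (hce : ce (pf r (H945.rst mu N (cl D0 w0 u v)) 1 N) Q f x = 1) :
    Real.log (D0 * (∏ i ∈ Q, (q i : ℝ)) *
      (ms mu N (cl D0 w0 u v) * marg (pf r (H945.rst mu N (cl D0 w0 u v)) 1 N) Q x) * N / Vv) +
      ∑ i ∈ univ \ Q, lam i * ∑ b, m1 (pf r mu 1 N) i b *
        phi (mi (pf r (H945.rst mu N (cl D0 w0 u v)) 1 N) Q f i x b / m1 (pf r mu 1 N) i b) ≤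
    ce (pf r (H945.rst mu N (cl D0 w0 u v)) 1 N) Q (fun y => f y * Real.log (f y)) x +
      cst (D0 * ∏ i ∈ Q, q i) :=
  ei_coreT H.toT Q hQ x hx hthick f hf hf' hce

/-- the reference = the marginals of the global law -/
theorem ref_push (hmu : Law mu 1 N) (hm0 : 0 < ms mu N (cl D0 w0 u v)) :
    Ref (fun i => m1 (pf r mu 1 N) i) (pf r (H945.rst mu N (cl D0 w0 u v)) 1 N) := by
  have h1 : Law (H945.rst mu N (cl D0 w0 u v)) 1 N := H945.rst_law hmu hm0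
  have h2 := isLaw_pf r h1
  have h3 := isLaw_pf r hmu
  refine ⟨⟨h2.1, h2.2⟩, fun i a => ?_, fun i => ?_, fun i a h => ?_⟩
  · show 0 ≤ m1 (pf r mu 1 N) i a
    rw [m1_eq_push]
    exact push_nonneg h3.1 _ _
  · show ∑ a, m1 (pf r mu 1 N) i a = 1
    rw [Finset.sum_congr rfl fun a _ => m1_eq_push (pf r mu 1 N) i a, sum_push_one]
    exact h3.2
  · have h4 : AC (pf r (H945.rst mu N (cl D0 w0 u v)) 1 N) (pf r mu 1 N) := by
      unfold pf
      refine AC.push (fun j hj => ?_) (isLaw_iv hmu).1 _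
      by_contra h5
      exact (H945.rst_ne h5).2 hj
    have h5 := h4.push h3.1 (fun x : ∀ i, V i => x i)
    change m1 (pf r mu 1 N) i a = 0 at h
    rw [m1_eq_push] at h ⊢
    exact h5 a h

theorem CellT.logs (H : CellT q r mu N W c cst DM Dt Dm Vv D0 w0 u v lam) {Q : Finset ι}
    {g : ℝ} (hg : 0 < g) :
    Real.log (D0 * (∏ i ∈ Q, (q i : ℝ)) * (ms mu N (cl D0 w0 u v) * g) * N / Vv) =
      Real.log (D0 * ms mu N (cl D0 w0 u v) * N / Vv) + ∑ i ∈ Q, Real.log (q i) +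
        Real.log g := by
  have hN : (0 : ℝ) < N := by exact_mod_cast H.law.pos
  have hD : (0 : ℝ) < D0 := by exact_mod_cast H.D1
  have hqpos : ∀ i, (0 : ℝ) < q i := fun i => by
    exact_mod_cast lt_of_lt_of_le (by norm_num : 0 < 2) (H.q2 i)
  have hP : (0 : ℝ) < ∏ i ∈ Q, (q i : ℝ) := Finset.prod_pos fun i _ => hqpos i
  have h1 : D0 * (∏ i ∈ Q, (q i : ℝ)) * (ms mu N (cl D0 w0 u v) * g) * N / Vv =
      D0 * ms mu N (cl D0 w0 u v) * N / Vv * (∏ i ∈ Q, (q i : ℝ)) * g := by ring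
  have h2 : 0 < D0 * ms mu N (cl D0 w0 u v) * N / Vv :=
    div_pos (mul_pos (mul_pos hD H.m0) hN) H.Vpos
  rw [h1, Real.log_mul (mul_pos h2 hP).ne' hg.ne', Real.log_mul h2.ne' hP.ne', Real.log_prod]
  exact fun i _ => (hqpos i).ne'

theorem CellT.wpos (H : CellT q r mu N W c cst DM Dt Dm Vv D0 w0 u v lam) {Q : Finset ι}
    {x : ∀ i, V i} (hx : 0 < marg (pf r (H945.rst mu N (cl D0 w0 u v)) 1 N) Q x) :
    ∀ i ∈ Q, 0 < m1 (pf r mu 1 N) i (x i) := fun i hi => by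
  have hR := ref_push (r := r) H.law H.m0
  have h1 := H779.Ab.prod_w_pos_of_marg hR.prob hR.w_nonneg hR.ac hx
  rcases (hR.w_nonneg i (x i)).eq_or_lt with h2 | h2
  · rw [Finset.prod_eq_zero hi h2.symm] at h1
    exact absurd h1 (lt_irrefl _)
  · exact h2

theorem CellHyp.logs (H : CellHyp q r mu N W c cst DM Dm Vv D0 w0 u v lam) {Q : Finset ι}
    {g : ℝ} (hg : 0 < g) :
    Real.log (D0 * (∏ i ∈ Q, (q i : ℝ)) * (ms mu N (cl D0 w0 u v) * g) * N / Vv) =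
      Real.log (D0 * ms mu N (cl D0 w0 u v) * N / Vv) + ∑ i ∈ Q, Real.log (q i) +
        Real.log g := H.toT.logs hg

theorem CellHyp.wpos (H : CellHyp q r mu N W c cst DM Dm Vv D0 w0 u v lam) {Q : Finset ι}
    {x : ∀ i, V i} (hx : 0 < marg (pf r (H945.rst mu N (cl D0 w0 u v)) 1 N) Q x) :
    ∀ i ∈ Q, 0 < m1 (pf r mu 1 N) i (x i) := H.toT.wpos hx

/-- **the energy increment inequality with pins** (helper104's `EIc`) for the image of a cell:
`cc i` cost of a pin, `cat i` cost of the atoms -/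
theorem eic_push (H : CellHyp q r mu N W c cst DM Dm Vv D0 w0 u v lam) {cc cat : ι → ℝ} {a0 : ℝ}
    (hat : ∀ i b, m1 (pf r mu 1 N) i b = 0 ∨
      Real.exp (-cat i) ≤ q i * m1 (pf r mu 1 N) i b)
    (hcost : ∀ Q : Finset ι, (D0 : ℝ) * ∏ i ∈ Q, (q i : ℝ) ≤ DM →
      cst (D0 * ∏ i ∈ Q, q i) - Real.log (D0 * ms mu N (cl D0 w0 u v) * N / Vv) ≤
        a0 + ∑ i ∈ Q, cc i)
    {δ : ℝ} (hδ : 0 < δ) (hδ1 : 1 / δ ≤ Real.exp Dm)
    (hδ2 : Real.exp (-Dm) * Vv ≤ D0 * (ms mu N (cl D0 w0 u v) * δ) * N) :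
    H104.EIc (fun i => m1 (pf r mu 1 N) i) (pf r (H945.rst mu N (cl D0 w0 u v)) 1 N)
      (fun Q => (D0 : ℝ) * ∏ i ∈ Q, (q i : ℝ) ≤ DM) lam
      (fun Q => a0 + ∑ i ∈ Q, (cc i + cat i)) δ := by
  intro Q hQ x hx f hf hf' hce
  have hx0 : 0 < marg (pf r (H945.rst mu N (cl D0 w0 u v)) 1 N) Q x := lt_of_lt_of_le hδ hx
  have hN : (0 : ℝ) < N := by exact_mod_cast H.law.pos
  have hD : (0 : ℝ) < D0 := by exact_mod_cast H.D1
  have hqpos : ∀ i, (0 : ℝ) < q i := fun i => by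
    exact_mod_cast lt_of_lt_of_le (by norm_num : 0 < 2) (H.q2 i)
  have hP1 : (1 : ℝ) ≤ ∏ i ∈ Q, (q i : ℝ) := by
    have h1 : ∏ i ∈ Q, (1 : ℝ) ≤ ∏ i ∈ Q, (q i : ℝ) :=
      Finset.prod_le_prod (fun _ _ => zero_le_one) fun i _ => by
        exact_mod_cast (lt_of_lt_of_le (by norm_num) (H.q2 i) : 1 < q i).le
    simpa using h1
  have hthick : Real.exp (-Dm) * Vv ≤ D0 * (∏ i ∈ Q, (q i : ℝ)) *
      (ms mu N (cl D0 w0 u v) * marg (pf r (H945.rst mu N (cl D0 w0 u v)) 1 N) Q x) * N := by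
    refine hδ2.trans (mul_le_mul_of_nonneg_right ?_ hN.le)
    refine mul_le_mul ?_ (mul_le_mul_of_nonneg_left hx H.m0.le) (mul_pos H.m0 hδ).le
      (by positivity)
    nlinarith
  have h := ei_core H Q hQ x hx0 hthick f hf (fun y => (hf' y).trans hδ1) hce
  rw [H.toT.logs hx0] at h
  have hw := H.toT.wpos hx0
  have hgd : Real.log (gdw (fun i => m1 (pf r mu 1 N) i)
      (pf r (H945.rst mu N (cl D0 w0 u v)) 1 N) Q x) =
      Real.log (marg (pf r (H945.rst mu N (cl D0 w0 u v)) 1 N) Q x) -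
        ∑ i ∈ Q, Real.log (m1 (pf r mu 1 N) i (x i)) := by
    unfold gdw
    rw [Real.log_div hx0.ne' (Finset.prod_pos hw).ne', Real.log_prod]
    exact fun i hi => (hw i hi).ne'
  have hcat : ∑ i ∈ Q, Real.log (m1 (pf r mu 1 N) i (x i)) + ∑ i ∈ Q, Real.log (q i) +
      ∑ i ∈ Q, cat i ≥ 0 := by
    rw [← Finset.sum_add_distrib, ← Finset.sum_add_distrib]
    refine Finset.sum_nonneg fun i hi => ?_
    rcases hat i (x i) with h1 | h1
    · exact absurd h1 (hw i hi).ne'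
    · have h2 := Real.log_le_log (Real.exp_pos _) h1
      rw [Real.log_exp, Real.log_mul (hqpos i).ne' (hw i hi).ne'] at h2
      linarith
  have ha := hcost Q hQ
  beta_reduce
  rw [hgd, Finset.sum_add_distrib]
  linarith

/-- **the pins inequality on thick cells** (field `hQ` of helper482's `Thick`), second reference
uniform -/
theorem pins_push (H : CellHyp q r mu N W c cst DM Dm Vv D0 w0 u v lam) {cc cat : ι → ℝ}
    {a0 : ℝ}
    (hat : ∀ i b, m1 (pf r mu 1 N) i b = 0 ∨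
      Real.exp (-cat i) ≤ q i * m1 (pf r mu 1 N) i b)
    (hcost : ∀ Q : Finset ι, (D0 : ℝ) * ∏ i ∈ Q, (q i : ℝ) ≤ DM →
      cst (D0 * ∏ i ∈ Q, q i) - Real.log (D0 * ms mu N (cl D0 w0 u v) * N / Vv) ≤
        a0 + ∑ i ∈ Q, cc i)
    (hDm : 0 ≤ Dm) {P : Finset ι}
    (hP : (D0 : ℝ) * ∏ i ∈ P, (q i : ℝ) ≤ DM) {e2 : ℝ} (he2 : 0 < e2)
    (hth : Real.exp (-Dm) * Vv * Real.exp (∑ i ∈ P, cat i) ≤
      D0 * ms mu N (cl D0 w0 u v) * N * e2) (x : ∀ i, V i)
    (hx : e2 ≤ gdw (fun i => m1 (pf r mu 1 N) i)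
      (pf r (H945.rst mu N (cl D0 w0 u v)) 1 N) P x) :
    ∑ j ∈ univ \ P, lam j * Di (fun i => m1 (pf r mu 1 N) i)
        (gdw (fun i => m1 (pf r mu 1 N) i) (pf r (H945.rst mu N (cl D0 w0 u v)) 1 N)) j P x ≤
      ∑ i ∈ P, cc i + a0 - Real.log (gdw (fun i _ => ((q i : ℝ))⁻¹)
          (pf r (H945.rst mu N (cl D0 w0 u v)) 1 N) P x) := by
  have hR := ref_push (r := r) H.law H.m0
  have hx0 : 0 < marg (pf r (H945.rst mu N (cl D0 w0 u v)) 1 N) P x := by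
    rcases (H779.marg_nonneg hR.prob P x).eq_or_lt with h | h
    · unfold gdw at hx
      rw [← h, zero_div] at hx
      linarith
    · exact h
  have hN : (0 : ℝ) < N := by exact_mod_cast H.law.pos
  have hD : (0 : ℝ) < D0 := by exact_mod_cast H.D1
  have hqpos : ∀ i, (0 : ℝ) < q i := fun i => by
    exact_mod_cast lt_of_lt_of_le (by norm_num : 0 < 2) (H.q2 i)
  have hwp := H779.Ab.prod_w_pos_of_marg hR.prob hR.w_nonneg hR.ac hx0
  have hw := H.toT.wpos hx0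
  have h1 : e2 * Real.exp (-∑ i ∈ P, cat i) ≤
      (∏ i ∈ P, (q i : ℝ)) * marg (pf r (H945.rst mu N (cl D0 w0 u v)) 1 N) P x := by
    have h2 : Real.exp (-∑ i ∈ P, cat i) ≤ ∏ i ∈ P, ((q i : ℝ) * m1 (pf r mu 1 N) i (x i)) := by
      rw [← Finset.sum_neg_distrib, Real.exp_sum]
      refine Finset.prod_le_prod (fun i _ => (Real.exp_pos _).le) fun i hi => ?_
      rcases hat i (x i) with h3 | h3
      · exact absurd h3 (hw i hi).ne'
      · exact h3
    have h3 : (∏ i ∈ P, (q i : ℝ)) * marg (pf r (H945.rst mu N (cl D0 w0 u v)) 1 N) P x =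
        gdw (fun i => m1 (pf r mu 1 N) i) (pf r (H945.rst mu N (cl D0 w0 u v)) 1 N) P x *
          ∏ i ∈ P, ((q i : ℝ) * m1 (pf r mu 1 N) i (x i)) := by
      rw [Finset.prod_mul_distrib]
      unfold gdw
      have := hwp.ne'
      field_simp
    rw [h3]
    exact mul_le_mul hx h2 (Real.exp_pos _).le (he2.le.trans hx)
  have hthick : Real.exp (-Dm) * Vv ≤ D0 * (∏ i ∈ P, (q i : ℝ)) *
      (ms mu N (cl D0 w0 u v) * marg (pf r (H945.rst mu N (cl D0 w0 u v)) 1 N) P x) * N := by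
    have h2 : Real.exp (-Dm) * Vv = Real.exp (-Dm) * Vv * Real.exp (∑ i ∈ P, cat i) *
        Real.exp (-∑ i ∈ P, cat i) := by
      rw [mul_assoc, ← Real.exp_add, add_neg_cancel, Real.exp_zero, mul_one]
    rw [h2]
    refine (mul_le_mul_of_nonneg_right hth (Real.exp_pos _).le).trans ?_
    have h3 : 0 ≤ D0 * ms mu N (cl D0 w0 u v) * N := by
      have := H.m0; positivity
    have h4 := mul_le_mul_of_nonneg_left h1 h3
    nlinarith
  have h := ei_core H P hP x hx0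
    hthick (fun _ => 1) (fun _ => zero_le_one) (fun _ => Real.one_le_exp hDm)
    (H482.ce_one hx0)
  rw [H.toT.logs hx0] at h
  have h5 : ce (pf r (H945.rst mu N (cl D0 w0 u v)) 1 N) P (fun _ => (1 : ℝ) * Real.log 1) x =
      0 := by
    unfold ce
    simp
  rw [h5] at h
  have h6 : ∑ j ∈ univ \ P, lam j * Di (fun i => m1 (pf r mu 1 N) i)
        (gdw (fun i => m1 (pf r mu 1 N) i) (pf r (H945.rst mu N (cl D0 w0 u v)) 1 N)) j P x =
      ∑ i ∈ univ \ P, lam i * ∑ b, m1 (pf r mu 1 N) i b *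
        phi (mi (pf r (H945.rst mu N (cl D0 w0 u v)) 1 N) P (fun _ => 1) i x b /
          m1 (pf r mu 1 N) i b) :=
    Finset.sum_congr rfl fun i hi => by
      rw [H482.Di_eq hR (Finset.mem_sdiff.1 hi).2 hx0]
  rw [h6]
  have h7 : Real.log (gdw (fun i _ => ((q i : ℝ))⁻¹)
      (pf r (H945.rst mu N (cl D0 w0 u v)) 1 N) P x) =
      ∑ i ∈ P, Real.log (q i) +
        Real.log (marg (pf r (H945.rst mu N (cl D0 w0 u v)) 1 N) P x) := by
    unfold gdw
    rw [Finset.prod_inv_distrib, div_inv_eq_mul, Real.log_mul hx0.ne', Real.log_prod, add_comm]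
    · exact fun i _ => (hqpos i).ne'
    · exact Finset.prod_ne_zero_iff.2 fun i _ => (hqpos i).ne'
  have ha := hcost P hP
  rw [h7]
  linarith

end cell

end

end Vale.Agent.P042.H858
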