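import Vale.Agent.P042.H858.EIPush
import Vale.Agent.P042.H104.Own

/-!
# P042: from the state inequality to helper104's `Data` for the image of a cell
-/

set_option autoImplicit false
set_option linter.unusedSectionVars false

namespace Vale.Agent.P042.H858

open Finset Vale.Agent.P042.H461
open Vale.Agent.P042.H599 (cm Law)
open Vale.Agent.P042.H945 (SM kl2 klc ms cl)
open Vale.Agent.P042.H779 (marg m1 phi)
open Vale.Agent.P042.H779.Ab (ce gdw Di Ref)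
open Vale.Agent.P042.H482 (mi)

/-- `MFe` from an inequality in the shape of helper362's `MF` / `ql`: more terms on the left
(`X ≥ 0`), the primes of `W` coprime to `D` -/
theorem MFe_of {mu : ℕ → ℝ} {N : ℕ} {W : Finset ℕ} {c cst : ℕ → ℝ} {DM Dm : ℝ} {u v : ℕ}
    (hW : ∀ p ∈ W, p.Prime) (X : ℕ → (ℕ → ℝ) → ℝ)
    (hX : ∀ D (y : ℕ → ℝ), Law y 1 N → H945.AC y mu N → 0 ≤ X D y)
    (h : ∀ (D w : ℕ) (y : ℕ → ℝ), 1 ≤ D → (D : ℝ) ≤ DM → 0 < ms mu N (cl D w u v) →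
      Real.exp (-Dm) * ((v + 1 - u : ℕ) : ℝ) ≤ D * ms mu N (cl D w u v) * N →
      Law y 1 N → (∀ n, 0 ≤ y n) →
      (∀ n, y n ≤ Real.exp Dm * H945.rst mu N (cl D w u v) n) →
      Real.log (D * ms mu N (cl D w u v) * N / ((v + 1 - u : ℕ) : ℝ)) +
        ∑ p ∈ W with Nat.Coprime p D, c p * klc y mu N p + X D y ≤
      kl2 y (H945.rst mu N (cl D w u v)) N + cst D) :
    MFe mu N W c cst DM Dm ((v + 1 - u : ℕ) : ℝ) u v := by
  intro D w y hD hDM hw hm hth hy hy0 hyle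
  have hac : H945.AC y mu N := by
    intro i _ h0
    have h1 := hyle (1 + i)
    have h2 : H945.rst mu N (cl D w u v) (1 + i) = 0 := by
      by_contra h3
      exact (H945.rst_ne h3).2 h0
    rw [h2, mul_zero] at h1
    exact le_antisymm h1 (hy0 _)
  have h1 := h D w y hD hDM hm hth hy hy0 hyle
  have h2 := hX D y hy hac
  have h3 : W.filter (fun p => ¬ p ∣ D) = W.filter fun p => Nat.Coprime p D := by
    refine Finset.filter_congr fun p hp => ?_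
    exact ((hW p hp).coprime_iff_not_dvd).symm
  rw [h3]
  linarith

section

variable {ι : Type*} [Fintype ι] [DecidableEq ι] {V : ι → Type*} [∀ i, Fintype (V i)]
  [∀ i, DecidableEq (V i)] {q : ι → ℕ} {r : ∀ i, ℕ → V i} {mu : ℕ → ℝ} {N D0 w0 u v : ℕ}
  {W : Finset ℕ} {c cst : ℕ → ℝ} {DM Dm Vv : ℝ} {lam : ι → ℝ}

/-- **helper104's `Data`** for the image of a cell of the state (reference = marginals of the
global law); `Y` bounds the moduli of the pins `i ∈ Q` -/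
theorem data_push (H : CellHyp q r mu N W c cst DM Dm Vv D0 w0 u v lam) {cc cat : ι → ℝ}
    {a0 : ℝ} (hat : ∀ i b, m1 (pf r mu 1 N) i b = 0 ∨
      Real.exp (-cat i) ≤ q i * m1 (pf r mu 1 N) i b)
    (hcost : ∀ Q : Finset ι, (D0 : ℝ) * ∏ i ∈ Q, (q i : ℝ) ≤ DM →
      cst (D0 * ∏ i ∈ Q, q i) - Real.log (D0 * ms mu N (cl D0 w0 u v) * N / Vv) ≤
        a0 + ∑ i ∈ Q, cc i)
    (ha0 : 0 ≤ a0) (hcc : ∀ i, 0 ≤ cc i + cat i)
    {d : ℕ} (hd : ∀ Q : Finset ι, Q.card ≤ d → (D0 : ℝ) * ∏ i ∈ Q, (q i : ℝ) ≤ DM)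
    {δ : ℝ} (hδ : 0 < δ) (hδ1 : 1 / δ ≤ Real.exp Dm)
    (hδ2 : Real.exp (-Dm) * Vv ≤ D0 * (ms mu N (cl D0 w0 u v) * δ) * N)
    {wm : ℝ} (hwm : 0 < wm) (hwm1 : wm ≤ 1)
    (hatoms : ∀ i b, m1 (pf r mu 1 N) i b = 0 ∨ wm ≤ m1 (pf r mu 1 N) i b)
    (hsmall : ((Fintype.card ι + 1 : ℕ) : ℝ) * (2 * Fintype.card ι + 1) ^ d * δ ≤ wm ^ d) :
    H104.Data (fun i => m1 (pf r mu 1 N) i) (pf r (H945.rst mu N (cl D0 w0 u v)) 1 N) lam a0
      (fun i => cc i + cat i) d δ wm where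
  ref := ref_push H.law H.m0
  δ_pos := hδ
  eic := by
    have h := eic_push H hat hcost hδ hδ1 hδ2
    intro Q hQ
    exact h Q (hd Q hQ)
  lam_nonneg := H.lam0
  a_nonneg := ha0
  c_nonneg := hcc
  wm_pos := hwm
  wm_le := hwm1
  atoms := hatoms
  small := hsmall

end

end Vale.Agent.P042.H858
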