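import Vale.Agent.P042.H743.PinQ

/-!
# P042, power regime: thin cells, general competitors

From the inequality of the state for cells of density at least `exp (-Dm)` to the one for cells of
density at least `exp (-Ds)`: the thin cells are covered by helper599's level one inequality.
-/

set_option autoImplicit false
set_option linter.unusedSectionVars false

namespace Vale.Agent.P042.H858

open Finset Vale.Agent.P042.H461
open Vale.Agent.P042.H599 (cm Law)
open Vale.Agent.P042.H945 (SM kl2 klc ms cl)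

/-- **all cells, all competitors** (`l = log P`) -/
theorem mft_thin {g C1 : ℝ} (hg : 0 < g) (hg1 : g ≤ 1) (hC1 : 1 ≤ C1) :
    ∃ l0 : ℝ, ∀ l ≥ l0, ∀ (mu : ℕ → ℝ) (N : ℕ), Law mu 1 N → (∀ n, 0 ≤ mu n) →
      ∀ W : Finset ℕ, (∀ p ∈ W, p.Prime) → (∀ p ∈ W, (p : ℝ) ≤ Real.exp (C1 * l)) →
      (∀ p ∈ W, ∀ a, cm mu 1 N p a = 0 ∨ (p : ℝ) ^ (-g) / (4 * p) ≤ cm mu 1 N p a) →
      ∀ (cst : ℕ → ℝ) (DM Dm Ds D1 : ℝ) (u v : ℕ), 1 ≤ u → 0 ≤ D1 → 0 ≤ Ds →
      (∀ n, mu n ≤ Real.exp D1 / N) → D1 + (Ds + Dm) + 1 ≤ g / (2560 * C1) * Real.exp l →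
      Real.exp (Real.exp l / 4) ≤ N →
      DM * (2 * Real.exp (Real.exp l / 4)) ≤ ((v + 1 - u : ℕ) : ℝ) →
      2 * Real.exp ((1 - g / 10) * l) ≤ Dm → (∀ D : ℕ, 1 ≤ D → (D : ℝ) ≤ DM → 0 ≤ cst D) →
      MFe mu N W (fun p => (p : ℝ) ^ (-g)) cst DM Dm ((v + 1 - u : ℕ) : ℝ) u v →
      MFt mu N W (fun p => (p : ℝ) ^ (-g)) cst DM Ds Dm ((v + 1 - u : ℕ) : ℝ) u v := by
  obtain ⟨l0, hl0⟩ := H599.thin_P (g1 := g / 2) (C1 := C1) (C := 24) (by linarith) (by linarith)
    hC1 (by norm_num)
  refine ⟨l0, fun l hl mu N law nn W hW hY atom cst DM Dm Ds D1 u v hu hD1 hDs cap hnum hN hV hDm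
    hcst hQ => ?_⟩
  intro D w y hD hDM hw hm hth hy hy0 hyle
  by_cases hthick : Real.exp (-Dm) * ((v + 1 - u : ℕ) : ℝ) ≤ D * ms mu N (cl D w u v) * N
  · exact hQ D w y hD hDM hw hm hthick hy hy0 hyle
  push Not at hthick
  have hDm0 : 0 ≤ Dm := le_trans (by positivity) hDm
  have hDR : (1 : ℝ) ≤ D := by exact_mod_cast hD
  have hNR : (0 : ℝ) < N := by exact_mod_cast law.pos
  have hVd : D * (2 * Real.exp (Real.exp l / 4)) ≤ ((v + 1 - u : ℕ) : ℝ) :=
    (mul_le_mul_of_nonneg_right hDM (by positivity)).trans hV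
  have hVpos : (0 : ℝ) < ((v + 1 - u : ℕ) : ℝ) := by
    refine lt_of_lt_of_le ?_ hVd
    have := Real.exp_pos (Real.exp l / 4)
    nlinarith
  have hrst0 := H743.rst_nonneg nn hm
  have hsupp : ∀ n, y n ≠ 0 → H945.rst mu N (cl D w u v) n ≠ 0 := by
    intro n hn h
    have h1 := hyle n
    rw [h, mul_zero] at h1
    exact hn (le_antisymm h1 (hy0 n))
  have hyl : ∀ n, y n ≤ mu n / (ms mu N (cl D w u v) * Real.exp (-Dm)) := by
    intro n
    refine (hyle n).trans ?_
    by_cases h : cl D w u v n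
    · rw [H945.rst_val h, Real.exp_neg]
      have := Real.exp_pos Dm
      have := hm.ne'
      apply le_of_eq
      field_simp
    · rw [H945.rst_val0 h, mul_zero]
      exact div_nonneg (nn n) (by positivity)
  have key := hl0 l hl mu y N law hy D w u v hD hw hu
    (fun n hn => (H945.rst_ne (hsupp n hn)).1) D1 (Ds + Dm) (ms mu N (cl D w u v) * Real.exp (-Dm))
    hD1 (by linarith) (by positivity) hyl
    (by
      have h1 : (D : ℝ) * N * (ms mu N (cl D w u v) * Real.exp (-Dm)) =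
          D * ms mu N (cl D w u v) * N * Real.exp (-Dm) := by ring
      have h2 : Real.exp (-(Ds + Dm)) * ((v + 1 - u : ℕ) : ℝ) =
          Real.exp (-Ds) * ((v + 1 - u : ℕ) : ℝ) * Real.exp (-Dm) := by
        rw [neg_add, Real.exp_add]; ring
      rw [h1, h2]
      exact mul_le_mul_of_nonneg_right hth (Real.exp_pos _).le)
    (fun i _ => cap _)
    (by
      have h1 : g / 2 / (1280 * C1) = g / (2560 * C1) := by
        have : C1 ≠ 0 := by linarith
        field_simp
        norm_num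
      rw [h1]; exact hnum)
    hN hVd W (fun p => (p : ℝ) ^ (-g)) (fun p => (p : ℝ) ^ (-g) / 4)
    (fun p hp => (hW p hp).pos)
    (fun p hp q hq hpq => (Nat.coprime_primes (hW p hp) (hW q hq)).2 hpq) hY
    (fun p hp => by positivity)
    (fun p hp => by
      have : (0 : ℝ) < p := by exact_mod_cast (hW p hp).pos
      positivity)
    (fun p hp => by
      have h1 : (p : ℝ) ^ (-g) ≤ 1 := Real.rpow_le_one_of_one_le_of_nonpos
        (by exact_mod_cast (hW p hp).one_lt.le) (by linarith)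
      linarith)
    (fun p hp => by
      have hp0 : (0 : ℝ) < p := by exact_mod_cast (hW p hp).pos
      have hp1 : (1 : ℝ) ≤ p := by exact_mod_cast (hW p hp).one_lt.le
      have hlp : 0 ≤ g * Real.log p := mul_nonneg hg.le (Real.log_nonneg hp1)
      have e1 : (p : ℝ) ^ (-g) = Real.exp (-(g * Real.log p)) := by
        rw [Real.rpow_def_of_pos hp0]; congr 1; ring
      have e2 : Real.log (1 / ((p : ℝ) ^ (-g) / 4)) = Real.log 4 + g * Real.log p := by
        rw [e1, one_div_div, Real.log_div (by norm_num) (Real.exp_pos _).ne', Real.log_exp]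
        ring
      rw [e2, e1, show g / 2 * Real.log p = g * Real.log p / 2 by ring]
      exact H743.atom_num hlp)
    (fun p hp a _ => by
      rcases atom p hp a with h | h
      · exact Or.inl h
      · refine Or.inr (le_trans (le_of_eq ?_) h)
        have hp0 : (p : ℝ) ≠ 0 := by exact_mod_cast (hW p hp).ne_zero
        field_simp)
  have hfil : W.filter (fun p => ¬ p ∣ D) = W.filter fun p => Nat.Coprime p D :=
    Finset.filter_congr fun p hp => ((hW p hp).coprime_iff_not_dvd).symm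
  rw [hfil]
  have hlog : Real.log (D * ms mu N (cl D w u v) * N / ((v + 1 - u : ℕ) : ℝ)) ≤ -Dm := by
    rw [Real.log_le_iff_le_exp (by positivity), div_le_iff₀ hVpos]
    exact hthick.le
  have h3 : (1 - g / 2 / 5) * l = (1 - g / 10) * l := by ring
  rw [h3] at key
  have h4 := hcst D hD hDM
  have h5 : 0 ≤ kl2 y (H945.rst mu N (cl D w u v)) N := by
    refine H945.kl2_nonneg hy (H945.rst_law law hm) fun i _ h => ?_
    by_contra h6
    exact hsupp _ h6 h
  linarith

end Vale.Agent.P042.H858
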